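import Vale.Agent.P106.U.H61.KL

/-!
# P106 / U / H205 : costs of the revealed blocks of a word (BUD)

`P` the law before, `Q` the law after the choice of the word (`Q ≪ P` is all that is used).

* `hc_gibbs`   : `H_Q(X | Z) ≤ E_Q[-log P(X | Z)]` (Gibbs), also on an extension of `Q` and with an extra letter;
* `hc_cheap`   : a block whose conditional probability `P(own value | Z)` is at least `e^{-c}` on the support of `Q`
                 costs at most `c` under `Q`;
* `chain`      : `H_Q(T n | Z) ≤ H_Q(T 0 | Z) + ∑_{i < n} H_Q(X_i | Z, T_i)`;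
* `budget_sum`  : along a word `(T, X)` with time steps `A` : blocks cheap given `(Z, T_i)`, or forced (set `F`, cost at most `M`):
                 `∑_{i ∉ A} H_Q(X_i | Z, T_i) ≤ c #(R) + M #(F)`;
* `end_le`  : if the time blocks are functions of `(Z, T_i)` then `H_Q(T n | Z) ≤ H_Q(T 0 | Z) + c #(R) + M #(F)`.
-/

set_option autoImplicit false

namespace Vale.Agent.P106.U.H205

open Finset Vale.Agent.P127 Vale.Agent.P127.Stk Vale.Agent.P127.U Vale.Agent.P127.U.Nonat Vale.Agent.P127.U.Act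
open Vale.Agent.P106.U.KL

variable {Ω : Type} [Fintype Ω] {Ω' : Type} [Fintype Ω'] {S T U' V : Type*}

/-- Gibbs : entropy against the conditional surprisal of another law (extension, extra letter) -/
theorem hc_gibbs (P : Law Ω) (Q : Law Ω') (π : Ω' → Ω) (hac : ∀ ω, 0 < Q.w ω → 0 < P.w (π ω))
    (X : Ω → S) (Z : Ω → T) (Y : Ω' → V) (hY : Fn Q (fun ω => Z (π ω)) Y) :
    hc Q (fun ω => X (π ω)) Y ≤ Q.ex (fun ω => -Real.log (cp P X Z (π ω))) := by
  classical
  have h := Q.gibbs_cond (fun ω => X (π ω)) (fun ω => (Z (π ω), Y ω))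
    (fun x y => P.pr (fun ω => (X ω, Z ω)) (x, y.1) / P.pr Z y.1)
    (fun x y => div_nonneg (P.pr_nonneg _ _) (P.pr_nonneg _ _)) ?_ ?_
  · have e : hc Q (fun ω => X (π ω)) (fun ω => (Z (π ω), Y ω)) = hc Q (fun ω => X (π ω)) Y := by
      refine hc_congr Q (fun _ _ _ _ e => congrArg Prod.fst e) (fun _ _ _ _ e => congrArg Prod.fst e) ?_ ?_
      · intro a b ha hb e
        exact Prod.ext (hY a b ha hb e) e
      · intro a b _ _ e
        exact congrArg Prod.snd e
    rw [← e]
    exact h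
  · intro y F
    rw [← Finset.sum_div]
    exact div_le_one_of_le₀ (P.sum_pr_pair_le X Z y.1 F) (P.pr_nonneg _ _)
  · intro ω hω
    exact cp_pos P X Z (hac ω hω)

/-- a cheap block -/
theorem hc_cheap (P : Law Ω) (Q : Law Ω') (π : Ω' → Ω) (hac : ∀ ω, 0 < Q.w ω → 0 < P.w (π ω))
    (X : Ω → S) (Z : Ω → T) (Y : Ω' → V) (hY : Fn Q (fun ω => Z (π ω)) Y) {c : ℝ}
    (h : ∀ ω, 0 < Q.w ω → Real.exp (-c) ≤ cp P X Z (π ω)) :
    hc Q (fun ω => X (π ω)) Y ≤ c := by
  refine (hc_gibbs P Q π hac X Z Y hY).trans ?_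
  have h1 : Q.ex (fun ω => -Real.log (cp P X Z (π ω))) ≤ Q.ex (fun _ => c) := by
    refine Q.ex_mono fun ω hω => ?_
    have h2 := Real.log_le_log (Real.exp_pos _) (h ω hω)
    rw [Real.log_exp] at h2
    linarith
  rwa [Q.ex_const] at h1

/-- chain rule along a nested family, given a side variable -/
theorem chain {Q : Law Ω} {n : ℕ} {τ σ : ℕ → Type*} {T : (i : ℕ) → Ω → τ i} {X : (i : ℕ) → Ω → σ i}
    (ht : ∀ i < n, Fn Q (T (i + 1)) (fun ω => (T i ω, X i ω))) (Z : Ω → V) :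
    hc Q (T n) Z ≤ hc Q (T 0) Z + ∑ i ∈ Finset.range n, hc Q (X i) (fun ω => (Z ω, T i ω)) := by
  have key : ∀ m ≤ n, hc Q (T m) Z ≤ hc Q (T 0) Z + ∑ i ∈ Finset.range m, hc Q (X i) (fun ω => (Z ω, T i ω)) := by
    intro m
    induction m with
    | zero => intro _; simp
    | succ m ih =>
      intro hm
      rw [Finset.sum_range_succ]
      have h1 := ih (by omega)
      have h2 : hc Q (T (m + 1)) Z ≤ hc Q (fun ω => (T m ω, X m ω)) Z := by
        refine hc_mono_left Q fun a b ha hb e => ?_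
        simp only [Prod.mk.injEq] at e
        exact ht m (by omega) a b ha hb (Prod.ext e.1.1 e.1.2)
      rw [hc_pair] at h2
      have h3 : hc Q (X m) (fun ω => (T m ω, Z ω)) = hc Q (X m) (fun ω => (Z ω, T m ω)) :=
        hc_congr Q (fun _ _ _ _ e => congrArg Prod.fst e) (fun _ _ _ _ e => congrArg Prod.fst e)
          (fun _ _ _ _ e => by simp only [Prod.mk.injEq] at e ⊢; exact ⟨e.2, e.1⟩)
          (fun _ _ _ _ e => by simp only [Prod.mk.injEq] at e ⊢; exact ⟨e.2, e.1⟩)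
      have h4 : hc Q (X m) (fun ω => (Z ω, T m ω)) = hc Q (X m) (fun ω => (T m ω, Z ω)) := h3.symm
      linarith
  exact key n le_rfl

section word

variable {P : Law Ω} {Q : Law Ω'} {n : ℕ} {τ σ υ : ℕ → Type*} {T : (i : ℕ) → Ω' → τ i} {X : (i : ℕ) → Ω' → σ i}
  {A : ℕ → Prop} {S₀ : (i : ℕ) → Ω' → υ i}

open Classical in
/-- **budget** : the blocks which are not time blocks are either cheap (cost at most `c`) or forced (`F`, cost at most `M`) -/
theorem budget_sum (f : ℕ → ℝ) (A F : ℕ → Prop) (n : ℕ) {c M : ℝ} (R G : ℕ)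
    (hc0 : 0 ≤ c) (hM : 0 ≤ M)
    (h1 : ∀ i < n, ¬ A i → ¬ F i → f i ≤ c) (h2 : ∀ i < n, ¬ A i → F i → f i ≤ M)
    (hR : ((Finset.range n).filter (fun i => ¬ A i ∧ ¬ F i)).card ≤ R)
    (hG : ((Finset.range n).filter (fun i => ¬ A i ∧ F i)).card ≤ G) :
    ∑ i ∈ (Finset.range n).filter (fun i => ¬ A i), f i ≤ R * c + G * M := by
  have e : ∑ i ∈ (Finset.range n).filter (fun i => ¬ A i), f i =
      ∑ i ∈ (Finset.range n).filter (fun i => ¬ A i ∧ ¬ F i), f i +
        ∑ i ∈ (Finset.range n).filter (fun i => ¬ A i ∧ F i), f i := by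
    rw [← Finset.filter_filter, ← Finset.filter_filter, add_comm]
    exact (Finset.sum_filter_add_sum_filter_not _ _ _).symm
  rw [e]
  refine add_le_add ?_ ?_
  · refine (Finset.sum_le_sum (g := fun _ => c) fun i hi => ?_).trans ?_
    · rw [Finset.mem_filter, Finset.mem_range] at hi
      exact h1 i hi.1 hi.2.1 hi.2.2
    · rw [Finset.sum_const, nsmul_eq_mul]
      exact mul_le_mul_of_nonneg_right (by exact_mod_cast hR) hc0
  · refine (Finset.sum_le_sum (g := fun _ => M) fun i hi => ?_).trans ?_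
    · rw [Finset.mem_filter, Finset.mem_range] at hi
      exact h2 i hi.1 hi.2.1 hi.2.2
    · rw [Finset.sum_const, nsmul_eq_mul]
      exact mul_le_mul_of_nonneg_right (by exact_mod_cast hG) hM

open Classical in
/-- the end state of a word given a side variable which knows the time blocks -/
theorem end_le (ht : ∀ i < n, Fn Q (T (i + 1)) (fun ω => (T i ω, X i ω))) (Z : Ω' → V) (F : ℕ → Prop) {c M : ℝ}
    (R G : ℕ) (hc0 : 0 ≤ c) (hM : 0 ≤ M)
    (hA : ∀ i < n, A i → Fn Q (X i) (fun ω => (Z ω, T i ω)))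
    (h1 : ∀ i < n, ¬ A i → ¬ F i → hc Q (X i) (fun ω => (Z ω, T i ω)) ≤ c)
    (h2 : ∀ i < n, ¬ A i → F i → hc Q (X i) (fun ω => (Z ω, T i ω)) ≤ M)
    (hR : ((Finset.range n).filter (fun i => ¬ A i ∧ ¬ F i)).card ≤ R)
    (hG : ((Finset.range n).filter (fun i => ¬ A i ∧ F i)).card ≤ G) :
    hc Q (T n) Z ≤ hc Q (T 0) Z + R * c + G * M := by
  have e1 := chain ht Z
  have e2 := budget_sum (fun i => hc Q (X i) (fun ω => (Z ω, T i ω))) A F n R G hc0 hM h1 h2 hR hG
  rw [← Finset.sum_filter_add_sum_filter_not (Finset.range n) A] at e1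
  have e3 : ∑ i ∈ (Finset.range n).filter A, hc Q (X i) (fun ω => (Z ω, T i ω)) = 0 := by
    refine Finset.sum_eq_zero fun i hi => ?_
    rw [Finset.mem_filter, Finset.mem_range] at hi
    exact hc_zero Q (hA i hi.1 hi.2)
  rw [e3] at e1
  linarith

end word

end Vale.Agent.P106.U.H205
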