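import Vale.Agent.P106.U.H205.CmpR
import Vale.Agent.P106.U.H565.RunF
import Vale.Agent.P106.U.H465.GcK
import Vale.Agent.P106.U.H449.RayNum
import Vale.Agent.P106.U.H449.Start
import Vale.Agent.P106.U.H523.SwRec

/-!
# P106 / U / H205 : [CMP1] for the concrete run (helper205)

Over 565's `C0` (system and word 1) and 465's `GbC`, `RTC`, `gTC` (closure, second path, slopes, for every law).

* `bit Q b` : the bit of COMPAT of the law `Q` at the base `b`, `lv Q` : the level of COMPAT (function of the law).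
* `bit_fn` : the bit is a function of the closure.
* `bit_pr` : **the bit is true with probability `≥ 1 / 2`**, at every base.
* `cmp` : literal field `C2.Hyp.cmp`.
* `tnum` : the light time blocks of the levels, with constants.
-/

set_option autoImplicit false

namespace Vale.Agent.P106.U.H205.CmpC

open Finset Vale.Agent.P127 Vale.Agent.P127.Stk Vale.Agent.P127.U Vale.Agent.P106.W
open Vale.Agent.P106.K (Ry RyOk bl Bin)
open Vale.Agent.P127.U.CellD (q2 rd q2_pos q2_le)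
open Vale.Agent.P127.U.Mic (colp)
open Vale.Agent.P106.U Vale.Agent.P106.U.H449 Vale.Agent.P106.U.StripL Vale.Agent.P106.U.StripE
open Vale.Agent.P106.U.LinkR Vale.Agent.P106.U.LinkW2 Vale.Agent.P106.U.LSide Vale.Agent.P106.U.InsL
open Vale.Agent.P106.U.InpC Vale.Agent.P106.U.H565
open Vale.Agent.P106.U.H465.GcK (GbC RTC gTC)

/-! ### the end label -/

/-- **the end label in the coordinates of the path**, class `1` -/
theorem fwb {Ω : Type} [Fintype Ω] {θ : ℝ} {h q Rm : ℕ} {Q : Law Ω} {ry : Ω → Ry} {t : Ω → ℝ} {W : Ω → Cbx} (hRm : 2 ≤ Rm)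
    (H : ∀ ω, 0 < Q.w ω → H465.FWn.FWok θ h q Rm (W ω) (ry ω) (t ω)) :
    FwB 1 θ h q Q ry t W (fun ω => H786.Adp.FW θ h (W ω) (t ω)) (fun ω => H786.Adp.toR θ (ry ω))
      (fun ω => H465.FWn.pW θ h (W ω) (ry ω) (t ω)) where
  Cl := fun _ _ => rfl
  FWW := fun ω _ => ⟨1, by norm_num, by norm_num, by simp only [one_mul]; rfl⟩
  FWn := fun ω hω => (H ω hω).unit.trans (mul_le_mul_of_nonneg_right (by norm_num) (q2_pos q).le)
  Cp := fun ω hω => (H ω hω).cp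
  n1 := fun ω hω => by
    have := (H ω hω).c1
    linarith
  p1 := fun ω hω => by
    refine (H ω hω).p1.trans ?_
    have h1 : q2 Rm ≤ q2 2 := q2_le hRm
    have h2 : q2 2 = 1 / 4 := by unfold q2; norm_num
    linarith
  k1 := fun ω hω => by
    have := (H ω hω).ka
    rw [H786.Adp.FW_ka, abs_neg] at this
    linarith

/-! ### the event -/

section defs

variable {Ω : Type} [Fintype Ω] {T : Type*} (c : C0 Ω) (hm : 3 ≤ c.I.m) (cc : ℝ) (F : ℕ → Ω → T) (r1 : ℕ)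

/-- precision (digits) of the slope of the letter at the base `b`, level `a` -/
noncomputable def rkA (Q : Law Ω) (b a : ℕ) (ω : Ω) : ℕ :=
  c.I.m * (c.I.kb - 2 + RTC c.I.m c.d0 c.rule c.P c.I.pm.n c.I.ha hm cc F Q b a ω)

/-- the slope of the letter at the base `b`, level `a`, sign of `Cell.Fu.al` -/
noncomputable def gA (Q : Law Ω) (b a : ℕ) (ω : Ω) : ℝ :=
  - gAc c.I.m c.d0 (gTC c.I.m c.d0 c.rule c.P c.I.pm.n c.I.ha hm cc F Q b) a ω

/-- **the event of COMPAT** at the base `b`, level `a`; the field of the label is known to `r1` digits -/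
def Ev (Q : Law Ω) (b a : ℕ) (ω : Ω) : Prop :=
  |gA c hm cc F Q b a ω - (c.FW ω).al| * q2 c.I.num.A' ≤ q2 (min (rkA c hm cc F Q b a ω) r1)

/-- the levels of COMPAT -/
noncomputable def win : Finset ℕ := Finset.Ico (c.I.Ab + c.I.J + 2) (c.I.A'b - 1)

open Classical in
/-- **the level of COMPAT** of the law `Q` -/
noncomputable def lv (Q : Law Ω) : ℕ :=
  if h : ∃ a ∈ win c, 1 / 2 ≤ prE Q (fun ω => ∀ b, Ev c hm cc F r1 Q b a ω) then h.choose else c.I.Ab + c.I.J + 2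

open Classical in
/-- **the bit of COMPAT** of the law `Q` at the base `b` -/
noncomputable def bit (Q : Law Ω) (b : ℕ) (ω : Ω) : Bool := decide (Ev c hm cc F r1 Q b (lv c hm cc F r1 Q) ω)

end defs

section main

variable {Ω : Type} [Fintype Ω] {T : Type*} {c : C0 Ω} {hm : 3 ≤ c.I.m} {cc : ℝ} {F : ℕ → Ω → T} {r1 : ℕ}
  {Rm N0 : ℕ} {K1 : ℝ} {Q : Law Ω} {E : List (Lt 2)} {x : ℝ}

/-- 449's hypotheses for a law with `Cn` -/
theorem ray (st : c.St Rm) (good : c.I.Good K1 N0) (cn : Cn c.rule c.P Q c.I.pm.n E x) :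
    Ray.Hy c.I.m c.I.kb c.d0 c.tW c.κ c.pp c.l c.Md c.P c.I.pm c.thr E Q x where
  s0 := st.s0
  a0 := st.a0
  k0 := st.k0
  in0 := st.in0
  m6 := st.m6
  good := good.pmG
  Md2 := st.Md2
  cn := cn

theorem isl (st : c.St Rm) : IsL c.I.m c.d0 c.tW c.κ c.rule := isL st.in0 _ _ _ c.P c.I.pm c.thr

/-- **the event is a function of the closure** -/
theorem ev_fn (st : c.St Rm) (cn : Cn c.rule c.P Q c.I.pm.n E x) (hc : 0 ≤ cc)
    (hF : ∀ b ω ω', F b ω = F b ω' → c.Wd ω = c.Wd ω') (b a : ℕ) {ω ω' : Ω}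
    (he : GbC c.I.m c.d0 c.rule c.P c.I.pm.n c.I.ha hm cc F Q b ω =
      GbC c.I.m c.d0 c.rule c.P c.I.pm.n c.I.ha hm cc F Q b ω') :
    Ev c hm cc F r1 Q b a ω = Ev c hm cc F r1 Q b a ω' := by
  obtain ⟨h1, h2⟩ := H465.GcK.RTC_fn (A := c.I.ha) (hm := hm) (F := F) cn (isl st) hc he.symm a
  have h3 := hF b ω ω' (H465.GcK.GbC_F cn he.symm).symm
  have h4 : c.FW ω = c.FW ω' := by
    have e1 : c.W ω = c.W ω' := congrArg Prod.fst h3
    have e2 : fl1 c.I.h (c.t ω) = fl1 c.I.h (c.t ω') := congrArg Prod.snd h3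
    show H786.Adp.FW c.θ c.I.h (c.W ω) (c.t ω) = H786.Adp.FW c.θ c.I.h (c.W ω') (c.t ω')
    rw [e1]
    refine H786.Adp.FW_congr ?_
    show (fl1 c.I.h (c.t ω) : ℝ) / 2 ^ c.I.h = (fl1 c.I.h (c.t ω') : ℝ) / 2 ^ c.I.h
    rw [e2]
  unfold Ev gA rkA gAc
  rw [h1, h2, h4]

/-- **the bit is a function of the closure** -/
theorem bit_fn (st : c.St Rm) (cn : Cn c.rule c.P Q c.I.pm.n E x) (hc : 0 ≤ cc)
    (hF : ∀ b ω ω', F b ω = F b ω' → c.Wd ω = c.Wd ω') (b : ℕ) :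
    Dtm Q (GbC c.I.m c.d0 c.rule c.P c.I.pm.n c.I.ha hm cc F Q b) (bit c hm cc F r1 Q b) := by
  classical
  intro ω ω' _ _ he
  unfold bit
  have := ev_fn (r1 := r1) st cn hc hF b (lv c hm cc F r1 Q) he
  simp only [this]

/-- the slope of the letter and the slope of the line of the ray side -/
theorem near (st : c.St Rm) (good : c.I.Good K1 N0) (cn : Cn c.rule c.P Q c.I.pm.n E x) (b a : ℕ) {ω : Ω}
    (hω : 0 < Q.w ω) :
    |gA c hm cc F Q b a ω - c.ala E a ω| * q2 (c.I.m * a) ≤ 1 * q2 (rkA c hm cc F Q b a ω) := by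
  have h0 : (0 : ℝ) < 2 ^ (c.d0.a + 2 * c.I.m) / 2 ^ c.d0.k := by positivity
  have h1 := H465.GcK.gTC_spec (A := c.I.ha) (hm := hm) (c := cc) (F := F) cn (isl st) b a hω
  have e0 : gA c hm cc F Q b a ω - c.ala E a ω = aI c.I.m c.d0 (c.rule.T c.P (ia c.I.pm.n E a) ω) -
      gAc c.I.m c.d0 (gTC c.I.m c.d0 c.rule c.P c.I.pm.n c.I.ha hm cc F Q b) a ω := by
    show - gAc c.I.m c.d0 (gTC c.I.m c.d0 c.rule c.P c.I.pm.n c.I.ha hm cc F Q b) a ω -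
      -(aI c.I.m c.d0 (c.rule.T c.P (ia c.I.pm.n E a) ω)) = _
    ring
  have hκ2 : 2 ≤ c.I.kb := by have := good.kb3; omega
  have h2 : |aI c.I.m c.d0 (c.rule.T c.P (ia c.I.pm.n E a) ω) -
      gAc c.I.m c.d0 (gTC c.I.m c.d0 c.rule c.P c.I.pm.n c.I.ha hm cc F Q b) a ω| ≤
      pr c.I.m c.d0 a (RTC c.I.m c.d0 c.rule c.P c.I.pm.n c.I.ha hm cc F Q b a ω) := by
    rw [aI_alR cn a hω]
    unfold gAc
    rw [absl_sub, abs_mul, abs_of_pos h0, ← scale_pr]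
    exact mul_le_mul_of_nonneg_right h1 h0.le
  rw [e0, one_mul]
  have h3 := mul_le_mul_of_nonneg_right h2 (q2_pos (c.I.m * a)).le
  rw [InpR.pr_q2 hκ2 st.k0 st.a0] at h3
  exact h3

open Classical in
/-- **one level for all bases**, one event for all bases -/
theorem exists_lv (st : c.St Rm) (good : c.I.Good K1 N0) (cn : Cn c.rule c.P Q c.I.pm.n E x) (hN0 : 4 ≤ N0)
    {D : ℝ} (hD : 0 ≤ D) {j : ℕ} (hj : 73 * (D + 1) ≤ 2 ^ j) (hrq : r1 + j ≤ c.I.q)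
    {a1 : ℕ} (ha1 : a1 ≤ c.I.m * (c.I.Ab + c.I.J + 2))
    (hS : H425.Sw D a1 (r1 + j) c.I.h Q c.l c.t c.W)
    (hs : ∑ a ∈ range c.I.A'b, colp Q (fun ω => fl1 (c.I.m * a + c.I.m) (c.t ω)) (fun ω => (c.l ω, c.Ua E a ω)) ≤
      (1 / 8) ^ 2 * (win c).card) :
    ∃ a ∈ win c, 1 / 2 ≤ prE Q (fun ω => ∀ b, Ev c hm cc F r1 Q b a ω) := by
  have hy := ray st good cn
  have hm6 := st.m6
  have hAb := good.Ab1
  have hAb2 := good.Ab2
  have hRm : 2 ≤ Rm := by have := st.μR; omega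
  have hAh : c.I.m * c.I.A'b ≤ c.I.h := good.A'h
  have hW : ∀ a ∈ win c, c.I.Ab + c.I.J + 2 ≤ a ∧ a + 2 ≤ c.I.A'b := fun a ha => by
    obtain ⟨h1, h2⟩ := Finset.mem_Ico.1 ha
    exact ⟨h1, by omega⟩
  have hne : (win c).Nonempty := ⟨c.I.Ab + c.I.J + 2, Finset.mem_Ico.2 ⟨le_rfl, by omega⟩⟩
  have hma : ∀ a ∈ win c, c.I.m * a + c.I.m + 2 ≤ c.I.m * c.I.A'b := fun a ha => by
    have h1 : c.I.m * (a + 2) ≤ c.I.m * c.I.A'b := Nat.mul_le_mul_left _ (hW a ha).2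
    have h2 : c.I.m * (a + 2) = c.I.m * a + c.I.m + c.I.m := by ring
    omega
  have hfw := fwb (Q := Q) (θ := c.θ) (h := c.I.h) (q := c.I.q) (ry := c.l) (t := c.t) (W := c.W) hRm
    (fun ω hω => st.fw ω (cn.pos hω))
  have htm : ∀ a ∈ win c, ∀ ω ω', 0 < Q.w ω → 0 < Q.w ω' → (c.l ω, c.Ua E a ω) = (c.l ω', c.Ua E a ω') →
      fl1 (c.I.m * a) (c.t ω) = fl1 (c.I.m * a) (c.t ω') := by
    intro a ha ω ω' hω hω' e
    have h1 : a ≤ c.I.pm.A := by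
      show a ≤ c.I.ha
      have := (hW a ha).2
      omega
    have h2 := hy.Ut h1 ω ω' hω hω' e
    have h3 : c.I.m * a ≤ c.I.h := by have := hma a ha; omega
    have h4 : ∀ ω, fl1 (c.I.m * a) (c.tW ω) = fl1 (c.I.m * a) (c.t ω) := fun ω => fl1_rdh h3 (c.t ω)
    rw [← h4, ← h4]
    exact h2
  obtain ⟨a, ha, H⟩ := compat_pr Q (m := c.I.m) (h := c.I.h) (r1 := r1) c.t c.κ (fun ω => (c.FW ω).al)
    (fun a ω => (c.l ω, c.Ua E a ω)) (c.ala E) (fun a => c.I.m * Ray.Ir c.I.kb c.I.pm.n E a) (win c) hne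
    (N₀ := ((win c).card : ℝ)) (κ₀ := 1 / 8) (M := 1) (by norm_num) le_rfl (by norm_num)
    (fun a ha => by have := hma a ha; omega)
    (fun a ha ω ω' hω hω' e => (swB hfw le_rfl hD hS (by rw [one_pow, mul_one]; exact hj) hrq hω hω'
      (congrArg Prod.fst e) (H404.fl1_le (ha1.trans (Nat.mul_le_mul_left _ (hW a ha).1)) (htm a ha ω ω' hω hω' e))).2)
    (fun a ha ω ω' hω hω' e => hy.lin hω (congrArg Prod.snd e))
    (le_trans (Finset.sum_le_sum_of_subset_of_nonneg (fun a ha => mem_range.2 (by have := (hW a ha).2; omega))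
      (fun a _ _ => Vale.Agent.P127.U.Mic.colp_nonneg Q _ _)) hs)
  refine ⟨a, ha, ?_⟩
  have hkb : 3 ≤ c.I.kb := good.kb3
  -- the base which fails, if there is one
  obtain ⟨bs, hbs⟩ : ∃ bs : Ω → ℕ, ∀ ω, Ev c hm cc F r1 Q (bs ω) a ω → ∀ b, Ev c hm cc F r1 Q b a ω := by
    have h0 : ∀ ω, ∃ b0 : ℕ, Ev c hm cc F r1 Q b0 a ω → ∀ b, Ev c hm cc F r1 Q b a ω := fun ω => by
      by_cases hall : ∀ b, Ev c hm cc F r1 Q b a ω
      · exact ⟨0, fun _ => hall⟩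
      · push Not at hall
        obtain ⟨b, hb⟩ := hall
        exact ⟨b, fun h => absurd h hb⟩
    exact ⟨fun ω => (h0 ω).choose, fun ω => (h0 ω).choose_spec⟩
  have h1 := H (fun ω => gA c hm cc F Q (bs ω) a ω) (fun ω => rkA c hm cc F Q (bs ω) a ω) (fun ω hω => by
    refine Nat.mul_le_mul_left _ ?_
    have h2 := H465.GcK.RTC_le (m := c.I.m) (d0 := c.d0) (A := c.I.ha) (hm := hm) (c := cc) (F := F) cn (bs ω) a ω
    have h3 : rR c.I.pm.n E a = Rw c.I.pm.n E 1 a := rfl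
    show c.I.kb - 2 + _ ≤ c.I.kb + Rw c.I.pm.n E 1 a
    omega) (fun ω hω => near st good cn (bs ω) a hω)
  have e0 : (1 : ℝ) - 4 * (1 / 8) = 1 / 2 := by norm_num
  rw [e0] at h1
  refine h1.trans (Vale.Agent.P127.U.Path.prE_mono Q fun ω hω hE => hbs ω ?_)
  -- from the level `a` to `A'`
  generalize bs ω = b at hE ⊢
  have hr0 := q2_pos (min (rkA c hm cc F Q b a ω) r1)
  have hA0 := q2_pos c.I.num.A'
  have h2 := mul_le_mul_of_nonneg_right hE hA0.le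
  have h3 : (3 + 1) * (2 ^ (c.I.m * a + c.I.m) * q2 (min (rkA c hm cc F Q b a ω) r1)) * q2 c.I.num.A' ≤
      q2 (min (rkA c hm cc F Q b a ω) r1) := by
    have h4 : q2 c.I.num.A' ≤ q2 (c.I.m * a + c.I.m + 2) := q2_le (hma a ha)
    have h5 : (3 + 1) * (2 : ℝ) ^ (c.I.m * a + c.I.m) * q2 (c.I.m * a + c.I.m + 2) = 1 := by
      have h6 := CellD.q2_mul_pow (c.I.m * a + c.I.m)
      have h7 : q2 (c.I.m * a + c.I.m + 2) = q2 (c.I.m * a + c.I.m) * (1 / 4) := by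
        unfold q2
        rw [pow_add]
        norm_num
      rw [h7]
      linear_combination h6
    have h8 : (0 : ℝ) < 2 ^ (c.I.m * a + c.I.m) := by positivity
    calc (3 + 1) * (2 ^ (c.I.m * a + c.I.m) * q2 (min (rkA c hm cc F Q b a ω) r1)) * q2 c.I.num.A'
        ≤ (3 + 1) * (2 ^ (c.I.m * a + c.I.m) * q2 (min (rkA c hm cc F Q b a ω) r1)) *
          q2 (c.I.m * a + c.I.m + 2) := mul_le_mul_of_nonneg_left h4 (by positivity)
      _ = ((3 + 1) * (2 : ℝ) ^ (c.I.m * a + c.I.m) * q2 (c.I.m * a + c.I.m + 2)) *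
          q2 (min (rkA c hm cc F Q b a ω) r1) := by ring
      _ = _ := by rw [h5, one_mul]
  exact h2.trans h3

/-- the chosen level -/
theorem lv_spec (h : ∃ a ∈ win c, 1 / 2 ≤ prE Q (fun ω => ∀ b, Ev c hm cc F r1 Q b a ω)) :
    lv c hm cc F r1 Q ∈ win c ∧ 1 / 2 ≤ prE Q (fun ω => ∀ b, bit c hm cc F r1 Q b ω = true) := by
  classical
  have e1 : lv c hm cc F r1 Q = h.choose := dif_pos h
  refine ⟨by rw [e1]; exact h.choose_spec.1, ?_⟩
  refine h.choose_spec.2.trans (Vale.Agent.P127.U.Path.prE_mono Q fun ω _ hE b => ?_)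
  unfold bit
  rw [decide_eq_true_iff, e1]
  exact hE b

/-- **literal field `C2.Hyp.cmp`** (`Ac = lv Q`, `rc = min (m (kb - 2 + RC Ac)) r1`) -/
theorem cmp_of {Q' : Law Ω} {b : ℕ} {RC : ℕ → ℕ} (h1 : ∀ ω, 0 < Q'.w ω → bit c hm cc F r1 Q b ω = true)
    (h2 : ∀ ω, 0 < Q'.w ω → RTC c.I.m c.d0 c.rule c.P c.I.pm.n c.I.ha hm cc F Q b (lv c hm cc F r1 Q) ω =
      RC (lv c hm cc F r1 Q)) (ω : Ω) (hω : 0 < Q'.w ω) :
    |(- gAc c.I.m c.d0 (gTC c.I.m c.d0 c.rule c.P c.I.pm.n c.I.ha hm cc F Q b) (lv c hm cc F r1 Q) ω) -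
      (c.FW ω).al| * q2 c.I.num.A' ≤ q2 (min (c.I.m * (c.I.kb - 2 + RC (lv c hm cc F r1 Q))) r1) := by
  classical
  have h3 : Ev c hm cc F r1 Q b (lv c hm cc F r1 Q) ω := by
    have := h1 ω hω
    unfold bit at this
    rwa [decide_eq_true_iff] at this
  unfold Ev rkA at h3
  rw [h2 ω hω] at h3
  exact h3

/-- `C2.Hyp.crc` -/
theorem crc_of (c : C2 Ω) {Ac r1 : ℕ} (hli : ∀ i, c.D.li i ≤ Ac) (hr : ∀ i, c.D.lk i ≤ r1) (i : ℕ) :
    c.D.lk i ≤ min (c.I.m * (c.I.kb - 2 + c.RC Ac)) r1 := by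
  refine le_min ?_ (hr i)
  have e1 : c.D.lk i = c.I.m * (c.I.kb - 2) + c.I.m * c.D.L.k (c.D.ix i) := rfl
  rw [e1, ← Nat.mul_add]
  refine Nat.mul_le_mul_left _ (Nat.add_le_add_left ?_ _)
  have h1 : c.D.L.k (c.D.ix i) ≤ c.D.R (c.D.li i) := c.D.L.k_le _
  exact h1.trans (c.D.nm.Rm (hli i))

end main

/-! ### numbers -/

/-- `2^(-x) ≤ 2 / x` -/
theorem two_neg {x : ℝ} (hx : 0 < x) : (2 : ℝ) ^ (-x) ≤ 2 / x := by
  have h1 : (2 : ℝ) ^ (-x) = Real.exp (-(Real.log 2 * x)) := by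
    rw [Real.rpow_def_of_pos (by norm_num)]
    ring_nf
  have l2 : 1 / 2 < Real.log 2 := by
    have := Real.log_two_gt_d9
    linarith
  have h2 : Real.log 2 * x + 1 ≤ Real.exp (Real.log 2 * x) := Real.add_one_le_exp _
  have h3 : x / 2 ≤ Real.exp (Real.log 2 * x) := by nlinarith
  rw [h1, Real.exp_neg, ← one_div, div_le_div_iff₀ (Real.exp_pos _) hx]
  linarith

/-- first term -/
theorem sc1 {κ lam d1 b K n y m h l Dn : ℝ} (hκ : 0 < κ) (hlam : 0 < lam) (hb : b + d1 + d1 ≤ 3 * d1)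
    (hd : d1 ≤ κ * lam / 60) (hK : 0 ≤ K) (hn : n + 1 ≤ 2 * y) (hy : 0 < y) (hm : 0 < m) (hym : y * m = h)
    (hl : 1 / 2 < l) (hD : lam / 2 ≤ Dn) (hmK : 40 * K / (lam * κ) ≤ m) :
    ((b + d1 + d1) * h * l + K * (n + 1)) / (Dn * (m * l)) ≤ κ / 2 * y := by
  have hDn0 : 0 < Dn := by linarith
  have hl0 : 0 < l := by linarith
  have hh : 0 < h := by rw [← hym]; positivity
  rw [div_le_iff₀ (by positivity)]
  have a1 : (b + d1 + d1) * h * l ≤ 3 * d1 * h * l :=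
    mul_le_mul_of_nonneg_right (mul_le_mul_of_nonneg_right hb hh.le) hl0.le
  have a2 : K * (n + 1) ≤ K * (2 * y) := mul_le_mul_of_nonneg_left hn hK
  have a3 : 3 * d1 * h * l ≤ κ / 10 * y * (Dn * (m * l)) := by
    have b1 : 3 * d1 ≤ κ / 10 * Dn := by
      have : κ / 10 * (lam / 2) ≤ κ / 10 * Dn := mul_le_mul_of_nonneg_left hD (by positivity)
      linarith only [this, hd]
    have b2 : 3 * d1 * (h * l) ≤ κ / 10 * Dn * (h * l) := mul_le_mul_of_nonneg_right b1 (by positivity)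
    have e : κ / 10 * y * (Dn * (m * l)) = κ / 10 * Dn * (h * l) := by rw [← hym]; ring
    rw [e]
    linarith only [b2]
  have a4 : K * (2 * y) ≤ κ / 5 * y * (Dn * (m * l)) := by
    rw [div_le_iff₀ (by positivity)] at hmK
    have b2 : lam / 2 * (m * (1 / 2)) ≤ Dn * (m * l) :=
      mul_le_mul hD (mul_le_mul_of_nonneg_left hl.le hm.le) (by positivity) hDn0.le
    have b4 := mul_le_mul_of_nonneg_left b2 (by positivity : (0 : ℝ) ≤ κ / 5)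
    have b3 : 2 * K ≤ κ / 5 * (Dn * (m * l)) := by
      have e : κ / 5 * (lam / 2 * (m * (1 / 2))) = m * (lam * κ) / 20 := by ring
      rw [e] at b4
      linarith only [b4, hmK]
    have b5 := mul_le_mul_of_nonneg_right b3 hy.le
    linarith only [b5]
  have a5 : 0 ≤ κ * y * (Dn * (m * l)) := by positivity
  linarith only [a1, a2, a3, a4, a5]

/-- second term -/
theorem sc2 {κ ct η n y m h l : ℝ} (hκ : 0 < κ) (hct : 0 < ct) (hη : η = κ * ct / 40) (hn : n ≤ y) (hy : 0 < y)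
    (hm : 0 < m) (hym : y * m = h) (hl : 1 / 2 < l) (hm20 : 20 / (ct * κ) ≤ m) :
    2 / (ct * m * l) * (η * h + n * l) ≤ κ / 4 * y := by
  have hl0 : 0 < l := by linarith
  rw [div_le_iff₀ (by positivity)] at hm20
  rw [div_mul_eq_mul_div, div_le_iff₀ (by positivity)]
  have a1 : n * l ≤ y * l := mul_le_mul_of_nonneg_right hn hl0.le
  have a2 : 2 * (η * h) ≤ κ / 8 * y * (ct * m * l) := by
    have e1 : 2 * (η * h) = κ / 20 * (y * (ct * m)) := by rw [hη, ← hym]; ring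
    have e2 : κ / 8 * y * (ct * m * l) = κ / 8 * l * (y * (ct * m)) := by ring
    rw [e1, e2]
    refine mul_le_mul_of_nonneg_right ?_ (by positivity)
    have : κ / 8 * (1 / 2) ≤ κ / 8 * l := mul_le_mul_of_nonneg_left hl.le (by positivity)
    linarith only [this, hκ]
  have a3 : 2 * (y * l) ≤ κ / 8 * y * (ct * m * l) := by
    have b1 : 2 ≤ κ / 8 * (ct * m) := by
      have e : κ / 8 * (ct * m) = m * (ct * κ) / 8 := by ring
      rw [e]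
      linarith only [hm20]
    have b2 := mul_le_mul_of_nonneg_right b1 (by positivity : (0 : ℝ) ≤ y * l)
    linarith only [b2]
  linarith only [a1, a2, a3]

/-- third term -/
theorem sc3 {κ ct n y m : ℝ} (hκ : 0 < κ) (hct : 0 < ct) (hn : n ≤ y) (hy : 0 < y) (hm : 0 < m)
    (hm20 : 20 / (ct * κ) ≤ m) : n * (2 : ℝ) ^ (-(ct * m / 2)) ≤ κ / 4 * y := by
  rw [div_le_iff₀ (by positivity)] at hm20
  have a1 : (2 : ℝ) ^ (-(ct * m / 2)) ≤ κ / 4 := by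
    refine (two_neg (by positivity)).trans ?_
    rw [div_le_iff₀ (by positivity)]
    have e : κ / 4 * (ct * m / 2) = m * (ct * κ) / 8 := by ring
    rw [e]
    linarith only [hm20]
  calc n * (2 : ℝ) ^ (-(ct * m / 2)) ≤ y * (κ / 4) := mul_le_mul hn a1 (by positivity) hy.le
    _ = _ := by ring

open Vale.Agent.P106.U.S5 in
/-- **light time blocks of the levels** : `≤ κ h / m` -/
theorem tnum {σ : Cst} (hσ : σ.Ok) {κ : ℝ} (hκ : 0 < κ) : ∃ η d1 : ℝ, 0 < η ∧ 0 < d1 ∧ ∀ g : Gv, g.Ok σ d1 →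
    ∃ m0 : ℕ, 1 ≤ m0 ∧ ∀ m : ℕ, m0 ≤ m → ∀ (Ω : Type) [Fintype Ω] (υ : Type) (Q : Law Ω) (ry : Ω → Ry) (t : Ω → ℝ)
      (L h q : ℕ) (W : Ω → Cbx) (U : ℕ → Ω → υ) (n' : ℕ), m ≤ h →
      NEx 100 σ.lam σ.N g.k g.β d1 Q ry t (fun _ => ()) L h q W → m * n' ≤ h →
      (∀ a ≤ n', Fn Q (fun ω => fl1 (m * a) (t ω)) (fun ω => (ry ω, U a ω))) →
      Stk.hc Q (U 0) ry +
        ∑ a ∈ range n', Stk.hc Q (U (a + 1)) (fun ω => ((ry ω, U a ω), fl1 (m * (a + 1)) (t ω))) ≤ η * h →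
      ∑ a ∈ range n', colp Q (fun ω => fl1 (m * a + m) (t ω)) (fun ω => (ry ω, U a ω)) ≤ κ * (h / m) := by
  have hlam := hσ.bs.lam0
  have hlam1 := hσ.bs.lam1
  have hN2 := hσ.bs.N2
  have hN0 : 0 < σ.N := by linarith
  have l2 : 1 / 2 < Real.log 2 := by
    have := Real.log_two_gt_d9
    linarith
  have l2' : Real.log 2 < 1 := by
    have := Real.log_two_lt_d9
    linarith
  obtain ⟨ct, hct⟩ : ∃ ct : ℝ, ct = σ.lam / (4 * σ.N) := ⟨_, rfl⟩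
  have hct0 : 0 < ct := by rw [hct]; positivity
  have hNct : σ.N * ct = σ.lam / 4 := by rw [hct]; field_simp
  obtain ⟨η, hη⟩ : ∃ η : ℝ, η = κ * ct / 40 := ⟨_, rfl⟩
  have hη0 : 0 < η := by rw [hη]; positivity
  obtain ⟨d1, hd10, hd1a, hd1b⟩ : ∃ d1 : ℝ, 0 < d1 ∧ d1 ≤ σ.lam / 16 ∧ d1 ≤ κ * σ.lam / 60 :=
    ⟨min (σ.lam / 16) (κ * σ.lam / 60), by positivity, min_le_left _ _, min_le_right _ _⟩
  refine ⟨η, d1, hη0, hd10, fun g hg => ?_⟩
  have hk0 := hg.k0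
  have hβ0 := hg.β0
  have hβb := hg.βb
  have hbε := hg.bε
  have hlb := hσ.bs.lamβ
  have hkε := hg.kε
  have hD : σ.lam / 2 ≤ g.b' + σ.N - 2 - 4 * g.k - σ.N * ct := by
    rw [hNct]
    linarith
  have hF : FIXA σ.lam σ.N (4 * g.k) g.b' := H523.FIXA_mono hlam.le hlam1.le (by linarith) (by linarith) hg.fix
  obtain ⟨K, hK0, hK⟩ := time_lev (lam := σ.lam) (N := σ.N) (k := g.k) (β := g.β) (β' := g.b') (ct := ct) hlam.le
    hlam1.le hk0 hN0.le (by linarith) hF hct0 (by linarith) (c := 100) (by norm_num) (ε := d1) hd10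
  obtain ⟨m0, hm0⟩ := exists_nat_gt (40 * K / (σ.lam * κ) + 20 / (ct * κ) + 1)
  have hm01 : (1 : ℝ) < m0 := by
    have h1 : 0 ≤ 40 * K / (σ.lam * κ) := by positivity
    have h2 : 0 ≤ 20 / (ct * κ) := by positivity
    linarith
  refine ⟨m0, by exact_mod_cast hm01.le, ?_⟩
  intro m hm Ω _ υ Q ry t L h q W U n' hmh hX hn' hUt hpr
  have hmr : (m0 : ℝ) ≤ m := by exact_mod_cast hm
  have hm1 : (1 : ℝ) < m := hm01.trans_le hmr
  have hm1N : 1 ≤ m := by exact_mod_cast hm1.le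
  have hm0' : (0 : ℝ) < m := by linarith
  have hhr : (m : ℝ) ≤ h := by exact_mod_cast hmh
  have hh0 : (0 : ℝ) < h := by linarith
  refine (hK Ω υ Q ry t L h q W d1 m U (η * h) n' hX hm1N hn' hUt hpr).trans ?_
  obtain ⟨y, hy⟩ : ∃ y : ℝ, y = (h : ℝ) / m := ⟨_, rfl⟩
  have hym : y * m = h := by rw [hy]; field_simp
  have hy1 : 1 ≤ y := by rw [hy, le_div_iff₀ hm0']; linarith
  have hy0 : 0 < y := by linarith
  have hn : (n' : ℝ) ≤ y := by
    rw [hy, le_div_iff₀ hm0']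
    have : ((m * n' : ℕ) : ℝ) ≤ h := by exact_mod_cast hn'
    push_cast at this
    linarith
  have hn0 : (0 : ℝ) ≤ n' := Nat.cast_nonneg _
  rw [← hy]
  obtain ⟨Dn, hDn⟩ : ∃ Dn : ℝ, Dn = g.b' + σ.N - 2 - 4 * g.k - σ.N * ct := ⟨_, rfl⟩
  rw [← hDn] at hD
  have hDn0 : 0 < Dn := by linarith
  unfold H425.eT
  rw [← hDn]
  have g1 : (0 : ℝ) ≤ 40 * K / (σ.lam * κ) := by positivity
  have g2 : (0 : ℝ) ≤ 20 / (ct * κ) := by positivity
  have g3 : 40 * K / (σ.lam * κ) ≤ m := by linarith only [g2, hm0, hmr]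
  have g4 : 20 / (ct * κ) ≤ m := by linarith only [g1, hm0, hmr]
  have t1 := sc1 (b := g.b' - g.β) hκ hlam (by linarith only [hbε]) hd1b hK0 (by linarith only [hn, hy1] : (n' : ℝ) + 1 ≤ 2 * y)
    hy0 hm0' hym l2 hD g3
  have t2 := sc2 hκ hct0 hη hn hy0 hm0' hym l2 g4
  have t3 := sc3 hκ hct0 hn hy0 hm0' g4
  linarith only [t1, t2, t3]

/-! ### the result -/

section fin

variable {Ω : Type} [Fintype Ω] {c : C0 Ω} {Rm N0 : ℕ} {K1 : ℝ} {Q : Law Ω} {E : List (Lt 2)} {x : ℝ}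

/-- the price of the letters of the ray side up to `A'b` -/
theorem price (st : c.St Rm) (good : c.I.Good K1 N0) (cn : Cn c.rule c.P Q c.I.pm.n E x) (hN0 : 4 ≤ N0)
    (ht0 : 0 < c.thr) (ht1 : c.thr ≤ 1) :
    Stk.hc Q (c.Ua E 0) c.l + ∑ a ∈ range c.I.A'b, Stk.hc Q (c.Ua E (a + 1))
      (fun ω => ((c.l ω, c.Ua E a ω), fl1 (c.I.m * (a + 1)) (c.t ω))) ≤
      Ray.HasU.gU c.I.m c.I.pm E c.Md c.thr 3 c.I.A'b := by
  have hy := ray st good cn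
  have hA : c.I.A'b < c.I.pm.A := by
    show c.I.A'b < c.I.ha
    have := good.Ab2
    omega
  have hAh : c.I.m * c.I.A'b ≤ c.I.h := good.A'h
  have h1 := hy.prU ht0 ht1 hA (SP := Finset.Ico (0 : ℤ) (2 ^ c.I.m))
    (fun j ω _ => H449.Start.phB_mem c.I.m c.I.kb (by have := good.kb3; omega) c.pp j ω) (H449.Start.card_SP c.I.m)
    (NS := 3) (st.NS.mono (fun ω hω => cn.pos hω) le_rfl)
  refine le_trans (le_of_eq ?_) h1
  refine congrArg₂ (· + ·) rfl (Finset.sum_congr rfl fun a ha => ?_)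
  have h2 : c.I.m * (a + 1) ≤ c.I.h := (Nat.mul_le_mul_left _ (Nat.succ_le_of_lt (mem_range.1 ha))).trans hAh
  have e1 : (fun ω => ((c.l ω, c.Ua E a ω), fl1 (c.I.m * (a + 1)) (c.t ω))) =
      fun ω => ((c.l ω, c.Ua E a ω), fl1 (c.I.m * (a + 1)) (c.tW ω)) := by
    funext ω
    rw [show fl1 (c.I.m * (a + 1)) (c.tW ω) = fl1 (c.I.m * (a + 1)) (c.t ω) from fl1_rdh h2 (c.t ω)]
  rw [e1]
  rfl

/-- number of the levels of COMPAT -/
theorem win_card (good : c.I.Good K1 N0) (hN0 : 4 ≤ N0)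
    (hh : 2 * c.I.m * (c.I.J + 4) ≤ c.I.δ1 * c.I.h) :
    c.I.δ1 / 128 * (c.I.h / c.I.m) ≤ (1 / 8) ^ 2 * ((win c).card : ℝ) := by
  have hm0 : (0 : ℝ) < c.I.m := by exact_mod_cast good.m1
  have h1 : (1 - 3 * c.I.δ1) * c.I.h / c.I.m < c.I.A'b + 1 := Nat.lt_floor_add_one _
  have h2 : ((c.I.m * c.I.Ab : ℕ) : ℝ) ≤ (1 - 4 * c.I.δ1) * c.I.h := good.A1
  rw [div_lt_iff₀ hm0] at h1
  push_cast at h2
  have h3 : (win c).card = c.I.A'b - 1 - (c.I.Ab + c.I.J + 2) := Nat.card_Ico _ _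
  have h4 : (win c).card + c.I.Ab + c.I.J + 3 = c.I.A'b := by
    have := good.Ab1
    omega
  have h5 : ((win c).card : ℝ) + c.I.Ab + c.I.J + 3 = c.I.A'b := by exact_mod_cast h4
  obtain ⟨y, hy⟩ : ∃ y : ℝ, y = (c.I.h : ℝ) / c.I.m := ⟨_, rfl⟩
  have hym : y * c.I.m = c.I.h := by rw [hy]; field_simp
  rw [← hy]
  have h6 : 2 * (c.I.J + 4 : ℝ) ≤ c.I.δ1 * y := by
    have e : (2 * (c.I.J + 4 : ℝ)) * c.I.m ≤ (c.I.δ1 * y) * c.I.m := by
      rw [mul_assoc c.I.δ1, hym]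
      linarith
    exact le_of_mul_le_mul_right e hm0
  have h7 : c.I.δ1 * y ≤ (win c).card + c.I.J + 4 := by
    have e : (c.I.δ1 * y) * c.I.m ≤ ((win c).card + c.I.J + 4) * c.I.m := by
      rw [mul_assoc c.I.δ1, hym]
      have e2 : ((win c).card : ℝ) = c.I.A'b - c.I.Ab - c.I.J - 3 := by linarith
      rw [e2]
      linarith
    exact le_of_mul_le_mul_right e hm0
  have h8 : (1 / 8 : ℝ) ^ 2 = 1 / 64 := by norm_num
  rw [h8]
  linarith

end fin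

open Vale.Agent.P106.U.S5 in
/-- **[CMP1]** : at the level `lv Q` the bit is true with probability `≥ 1 / 2` at every base; the field of the label is known to
`r1 = pr (C1 lam) (8 δ1) j h q` digits, which is at least the last precision of the path -/
theorem cmp1 {σ : Cst} (hσ : σ.Ok) : ∃ η d1 : ℝ, 0 < η ∧ 0 < d1 ∧ ∀ g : Gv, g.Ok σ d1 →
    ∃ m0 : ℕ, 1 ≤ m0 ∧ ∀ m : ℕ, m0 ≤ m → ∀ (J : ℕ) (D : ℝ), 0 ≤ D → ∃ j h0 : ℕ,
      ∀ (Ω : Type) [Fintype Ω] (T : Type) (c : C0 Ω) (hm : 3 ≤ c.I.m) (cc : ℝ) (F : ℕ → Ω → T) (Rm N0 : ℕ) (K1 : ℝ)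
        (Q : Law Ω) (E : List (Lt 2)) (x : ℝ), c.I.m = m → c.I.J = J → c.I.δ1 = σ.δ1 → c.I.C1 = σ.C1 →
      h0 ≤ c.I.h → 10 * σ.C1 * σ.δ1 * c.I.h ≤ c.I.q → 4 ≤ N0 → c.St Rm → c.I.Good K1 N0 →
      Cn c.rule c.P Q c.I.pm.n E x → 0 < c.thr → c.thr ≤ 1 → Ray.HasU.gU c.I.m c.I.pm E c.Md c.thr 3 c.I.A'b ≤ η * c.I.h →
      NEx 100 σ.lam σ.N g.k g.β d1 Q c.l c.t (fun _ => ()) c.L c.I.h c.I.q c.W →
      H425.SwA D (H425.C1 σ.lam) (H523.SwRec.la (8 * σ.δ1) c.I.h) c.I.h c.I.q Q c.l c.t c.W →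
      lv c hm cc F (H523.SwRec.pr (H425.C1 σ.lam) (8 * σ.δ1) j c.I.h c.I.q) Q ∈ win c ∧
      1 / 2 ≤ prE Q (fun ω => ∀ b, bit c hm cc F (H523.SwRec.pr (H425.C1 σ.lam) (8 * σ.δ1) j c.I.h c.I.q) Q b ω = true) ∧
      c.I.num.QK + m * (J + 1) ≤ H523.SwRec.pr (H425.C1 σ.lam) (8 * σ.δ1) j c.I.h c.I.q := by
  have hlam := hσ.bs.lam0
  have hlam1 := hσ.bs.lam1
  have hδ := hσ.δ0
  have hδθ := hσ.δθ
  have hθ4 := hσ.θ4
  obtain ⟨η, d1, hη, hd1, H⟩ := tnum hσ (κ := σ.δ1 / 128) (by positivity)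
  refine ⟨η, d1, hη, hd1, fun g hg => ?_⟩
  obtain ⟨m0, hm01, H2⟩ := H g hg
  refine ⟨m0, hm01, fun m hm J D hD => ?_⟩
  obtain ⟨j, hj⟩ := pow_unbounded_of_one_lt (73 * (D + 1)) (one_lt_two : (1 : ℝ) < 2)
  have hC0 : 1 ≤ H425.C1 σ.lam := H425.C1_ge hlam
  have hC8 : 8 * H425.C1 σ.lam ≤ σ.C1 := by
    show 8 * (1 + 48 / σ.lam) ≤ 1000 / σ.lam + 1
    have h1 : 1 ≤ 1 / σ.lam := by rw [le_div_iff₀ hlam]; linarith
    have h2 : 48 / σ.lam = 48 * (1 / σ.lam) := by ring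
    have h3 : 1000 / σ.lam = 1000 * (1 / σ.lam) := by ring
    rw [h2, h3]
    linarith
  have hmr : (1 : ℝ) ≤ m := by exact_mod_cast hm01.trans hm
  obtain ⟨h0, hh0⟩ := exists_nat_gt ((1 + j + H425.C1 σ.lam + m * (J + 1) + 2 * m * (J + 4)) / σ.δ1 : ℝ)
  refine ⟨j, max h0 m, ?_⟩
  intro Ω _ T c hm3 cc F Rm N0 K1 Q E x em eJ eδ eC hh hq hN0 st good cn ht0 ht1 hgU hX hS
  have hhm : m ≤ c.I.h := (le_max_right _ _).trans hh
  have hhr : (h0 : ℝ) ≤ c.I.h := by exact_mod_cast (le_max_left _ _).trans hh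
  have hbig : 1 + j + H425.C1 σ.lam + m * (J + 1) + 2 * m * (J + 4) ≤ σ.δ1 * c.I.h := by
    have := hh0.le.trans hhr
    rw [div_le_iff₀ hδ] at this
    linarith
  have hJ0 : (0 : ℝ) ≤ J := Nat.cast_nonneg _
  have hj0 : (0 : ℝ) ≤ j := Nat.cast_nonneg _
  have hmJ : (0 : ℝ) ≤ m * (J + 1) := by positivity
  have hmJ4 : (0 : ℝ) ≤ 2 * m * (J + 4) := by positivity
  have hhp : (0 : ℝ) ≤ c.I.h := Nat.cast_nonneg _
  -- the level and the precision of `sw`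
  obtain ⟨C', hC'⟩ : ∃ C' : ℝ, C' = H425.C1 σ.lam := ⟨_, rfl⟩
  rw [← hC'] at hC0 hC8 hbig hS ⊢
  obtain ⟨a1, ha1⟩ : ∃ a1 : ℕ, a1 = H523.SwRec.la (8 * σ.δ1) c.I.h := ⟨_, rfl⟩
  have hla1 := H523.SwRec.la_le (x := 8 * σ.δ1) (by linarith) c.I.h
  have hla2 := H523.SwRec.la_lt (8 * σ.δ1) c.I.h
  have hla3 : C' * ((c.I.h : ℝ) - H523.SwRec.la (8 * σ.δ1) c.I.h) ≤ σ.C1 * σ.δ1 * c.I.h + C' := by
    have h1 : C' * ((c.I.h : ℝ) - H523.SwRec.la (8 * σ.δ1) c.I.h) ≤ C' * (8 * σ.δ1 * c.I.h + 1) :=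
      mul_le_mul_of_nonneg_left (by linarith) (by linarith)
    have h2 : 8 * C' * (σ.δ1 * c.I.h) ≤ σ.C1 * (σ.δ1 * c.I.h) := mul_le_mul_of_nonneg_right hC8 (by positivity)
    linarith
  have hCh : σ.δ1 * c.I.h ≤ σ.C1 * σ.δ1 * c.I.h := by
    have h1 : 1 ≤ σ.C1 := by linarith
    have := mul_le_mul_of_nonneg_right h1 (by positivity : (0 : ℝ) ≤ σ.δ1 * c.I.h)
    linarith
  have hok := H523.SwRec.pr_ok' (C := C') (x := 8 * σ.δ1) (j := j) (h := c.I.h) (q := c.I.q) (by linarith)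
  have hlt := H523.SwRec.pr_lt C' (8 * σ.δ1) j c.I.h c.I.q
  obtain ⟨r1, hr1⟩ : ∃ r1 : ℕ, r1 = H523.SwRec.pr C' (8 * σ.δ1) j c.I.h c.I.q := ⟨_, rfl⟩
  rw [← hr1] at hok hlt ⊢
  have hgap : 0 ≤ C' * ((c.I.h : ℝ) - H523.SwRec.la (8 * σ.δ1) c.I.h) := by
    have h1 : (H523.SwRec.la (8 * σ.δ1) c.I.h : ℝ) ≤ c.I.h := by
      exact_mod_cast H523.SwRec.la_h (by positivity) (by linarith) c.I.h
    exact mul_nonneg (by linarith) (by linarith)
  have hrq : r1 + j ≤ c.I.q := by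
    have : ((r1 + j : ℕ) : ℝ) ≤ c.I.q := by push_cast; linarith
    exact_mod_cast this
  have hSw : H425.Sw D (H523.SwRec.la (8 * σ.δ1) c.I.h) (r1 + j) c.I.h Q c.l c.t c.W := hS (r1 + j) (by push_cast; linarith)
  have ha1m : H523.SwRec.la (8 * σ.δ1) c.I.h ≤ c.I.m * (c.I.Ab + c.I.J + 2) := by
    have h1 : (1 - 5 * c.I.δ1) * c.I.h ≤ ((c.I.m * c.I.Ab : ℕ) : ℝ) := good.A2
    rw [eδ] at h1
    have h2 : (H523.SwRec.la (8 * σ.δ1) c.I.h : ℝ) ≤ ((c.I.m * c.I.Ab : ℕ) : ℝ) := by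
      have : 0 ≤ σ.δ1 * c.I.h := by positivity
      linarith
    have h3 : H523.SwRec.la (8 * σ.δ1) c.I.h ≤ c.I.m * c.I.Ab := by exact_mod_cast h2
    exact h3.trans (Nat.mul_le_mul_left _ (by omega))
  -- light time blocks
  have hAh : c.I.m * c.I.A'b ≤ c.I.h := good.A'h
  have hy := ray st good cn
  have hsum := H2 m hm Ω (ℤ × S1) Q c.l c.t c.L c.I.h c.I.q c.W (c.Ua E) c.I.A'b hhm hX (by rw [← em]; exact hAh)
    (fun a ha => by
      intro ω ω' hω hω' e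
      have h1 : a ≤ c.I.pm.A := by
        show a ≤ c.I.ha
        have := good.Ab2
        omega
      have h2 := hy.Ut h1 ω ω' hω hω' e
      have h3 : c.I.m * a ≤ c.I.h := (Nat.mul_le_mul_left _ ha).trans hAh
      have h4 : ∀ ω, fl1 (c.I.m * a) (c.tW ω) = fl1 (c.I.m * a) (c.t ω) := fun ω => fl1_rdh h3 (c.t ω)
      beta_reduce at h2 ⊢
      rw [h4, h4] at h2
      rw [← em]
      exact h2)
    (by rw [← em]; exact (price st good cn hN0 ht0 ht1).trans hgU)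
  have hcard := win_card good hN0 (by rw [eδ, em, eJ]; linarith)
  rw [eδ, em] at hcard
  have hlv := exists_lv (hm := hm3) (cc := cc) (F := F) (r1 := r1) st good cn hN0 hD hj.le hrq ha1m hSw
    (by rw [em]; exact hsum.trans hcard)
  obtain ⟨k1, k2⟩ := lv_spec hlv
  refine ⟨k1, k2, ?_⟩
  have hQK := good.QK1
  rw [eδ, eC] at hQK
  have : ((c.I.num.QK + m * (J + 1) : ℕ) : ℝ) ≤ r1 := by
    push_cast
    linarith
  exact_mod_cast this

end Vale.Agent.P106.U.H205.CmpC
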