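import Vale.Agent.P106.U.H205.CmpC
import Vale.Agent.P106.U.H824.MkC2

/-!
# P106 / U / H205 : [CMP1], literal hypotheses of the selection and of the data at the cap (helper205)

* `btC`, `r1C` : the bit at the cap `b0 + kk s`, the number of digits of the field of the label.
* `cmp_run` : the bit of 480's `run_sel` (function of the closure, joint probability `≥ 1 / 2`) and **`C2.Hyp` for 465's `mk2`**.
-/

set_option autoImplicit false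

namespace Vale.Agent.P106.U.H205.CmpG

open Finset Vale.Agent.P127 Vale.Agent.P127.Stk Vale.Agent.P127.U Vale.Agent.P106.W
open Vale.Agent.P106.K (Ry RyOk bl Bin)
open Vale.Agent.P127.U.CellD (q2 rd q2_pos q2_le)
open Vale.Agent.P106.U Vale.Agent.P106.U.H449 Vale.Agent.P106.U.StripL Vale.Agent.P106.U.StripE
open Vale.Agent.P106.U.LinkR Vale.Agent.P106.U.LinkW2 Vale.Agent.P106.U.LSide Vale.Agent.P106.U.InsL
open Vale.Agent.P106.U.InpC Vale.Agent.P106.U.H565 Vale.Agent.P106.U.S5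
open Vale.Agent.P106.U.H823.NumW Vale.Agent.P106.U.H823.PathNum
open Vale.Agent.P106.U.H205.CmpC (bit lv win)

/-- **the bit of the selection** : at the cap `b0 + kk s` -/
noncomputable def btC {Ω : Type} [Fintype Ω] (c : C0 Ω) (hm : 3 ≤ c.I.m) (cc : ℝ) (r1 s : ℕ) (Q : Law Ω) (b0 kk : ℕ) :
    Ω → Bool := bit c hm cc c.Fy r1 Q (b0 + kk * s)

/-- the number of digits of the field of the label -/
noncomputable def r1C (σ : Cst) (j h q : ℕ) : ℕ := H523.SwRec.pr (H425.C1 σ.lam) (8 * σ.δ1) j h q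

/-- **[CMP1]**, literal form -/
theorem cmp_run {σ : Cst} (hσ : σ.Ok) : ∃ η d1 : ℝ, 0 < η ∧ 0 < d1 ∧ ∀ g : Gv, g.Ok σ d1 →
    ∃ m0 : ℕ, 1 ≤ m0 ∧ ∀ m : ℕ, m0 ≤ m → ∀ (J : ℕ) (D : ℝ), 0 ≤ D → ∃ j h0 : ℕ,
      ∀ (Ω : Type) [Fintype Ω] (c : C0 Ω) (hm : 3 ≤ c.I.m) (cc : ℝ) (hc : 0 ≤ cc) (Rm : ℕ) (K1 : ℝ) (st : c.St Rm)
        (good : c.I.Good K1 4), c.I.m = m → c.I.J = J → c.I.δ1 = σ.δ1 → c.I.C1 = σ.C1 →
      h0 ≤ c.I.h → 10 * σ.C1 * σ.δ1 * c.I.h ≤ c.I.q → 0 < c.thr → c.thr ≤ 1 →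
      (∀ (E : List (Lt 2)) (A' : ℕ), Rw c.I.pm.n E 0 A' + Rw c.I.pm.n E 1 A' ≤ c.I.pm.n →
        Ray.HasU.gU c.I.m c.I.pm E c.Md c.thr 3 A' ≤ η * c.I.h) →
      H425.SwA D (H425.C1 σ.lam) (H523.SwRec.la (8 * σ.δ1) c.I.h) c.I.h c.I.q c.P c.l c.t c.W →
      ∀ (s : ℕ) (Q1 : Law Ω) (E1 : List (Lt 2)) (x1 : ℝ) (cn : Cn c.rule c.P Q1 c.I.pm.n E1 x1),
      (∀ b0 kk, Dtm Q1 (c.Gb hm cc Q1 (b0 + kk * s)) (btC c hm cc (r1C σ j c.I.h c.I.q) s Q1 b0 kk)) ∧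
      (NEx 100 σ.lam σ.N g.k g.β d1 Q1 c.l c.t (fun _ => ()) c.L c.I.h c.I.q c.W →
        (∀ b0 kk, 1 / 2 ≤ prE Q1 (fun ω => ∀ i ≤ kk, btC c hm cc (r1C σ j c.I.h c.I.q) s Q1 b0 i ω = true)) ∧
        c.I.num.QK + c.I.m * (c.I.J + 1) ≤ r1C σ j c.I.h c.I.q ∧
        ∃ Ac : ℕ, c.I.Ab + c.I.J + 2 ≤ Ac ∧ Ac + 2 ≤ c.I.A'b ∧
          ∀ (b0 kk : ℕ) (V : Type) (w : Ω → V) (z : V) (hz : 0 < Q1.pr w z) (ps : ℕ) (o : Fin 7 → ℝ) (oK oG oN : ℝ),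
          (∀ ω, 0 < Q1.w ω → w ω = z → btC c hm cc (r1C σ j c.I.h c.I.q) s Q1 b0 kk ω = true) →
          Fn Q1 w (c.Gb hm cc Q1 (b0 + kk * s)) →
          (∀ ω ω', 0 < Q1.w ω → 0 < Q1.w ω' → w ω = w ω' → ∀ a ≤ c.I.ha,
            c.RT hm cc Q1 (b0 + kk * s) a ω = c.RT hm cc Q1 (b0 + kk * s) a ω') →
          A1 c.I.M + 1 ≤ c.I.J → A3 0 c.I.M 0 + 1 ≤ c.I.J → 3 * (c.Md + 1) ≤ c.I.J → 2 ≤ ps →
          ((⟨c, K1, 4, good, Q1, E1, x1, cn⟩ : C1 Ω).mk2 hm cc st.in0 hc (b0 + kk * s) w z hz ps o oK oG oN).Hyp Rm cc Ac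
            (min (c.I.m * (c.I.kb - 2 +
              ((⟨c, K1, 4, good, Q1, E1, x1, cn⟩ : C1 Ω).mk2 hm cc st.in0 hc (b0 + kk * s) w z hz ps o oK oG oN).RC Ac))
              (r1C σ j c.I.h c.I.q))) := by
  obtain ⟨η, d1, hη, hd1, H⟩ := CmpC.cmp1 hσ
  refine ⟨η, d1, hη, hd1, fun g hg => ?_⟩
  obtain ⟨m0, hm01, H⟩ := H g hg
  refine ⟨m0, hm01, fun m hm J D hD => ?_⟩
  obtain ⟨j, h0, H⟩ := H m hm J D hD
  refine ⟨j, h0, ?_⟩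
  intro Ω _ c hm3 cc hc Rm K1 st good em eJ eδ eC hh hq ht0 ht1 hgU hS s Q1 E1 x1 cn
  have hF : ∀ b ω ω', c.Fy b ω = c.Fy b ω' → c.Wd ω = c.Wd ω' := fun b ω ω' e => congrArg Prod.fst e
  refine ⟨fun b0 kk => CmpC.bit_fn (hm := hm3) (r1 := r1C σ j c.I.h c.I.q) st cn hc hF (b0 + kk * s), fun hX => ?_⟩
  obtain ⟨k1, k2, k3⟩ := H Ω ((Cbx × ℤ) × ℤ) c hm3 cc c.Fy Rm 4 K1 Q1 E1 x1 em eJ eδ eC hh hq le_rfl st good cn ht0 ht1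
    (hgU E1 c.I.A'b ((CmpC.ray st good cn).Rw_le _)) hX (hS.mono fun ω hω => cn.pos hω)
  have k3' : c.I.num.QK + c.I.m * (c.I.J + 1) ≤ r1C σ j c.I.h c.I.q := by rw [em, eJ]; exact k3
  obtain ⟨w1, w2⟩ := Finset.mem_Ico.1 k1
  refine ⟨fun b0 kk => k2.trans (Vale.Agent.P127.U.Path.prE_mono Q1 fun ω _ hE i _ => hE (b0 + i * s)), k3', lv c hm3 cc c.Fy (r1C σ j c.I.h c.I.q) Q1, w1, ?_, ?_⟩
  · have e : r1C σ j c.I.h c.I.q = H523.SwRec.pr (H425.C1 σ.lam) (8 * σ.δ1) j c.I.h c.I.q := rfl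
    rw [e]
    omega
  · intro b0 kk V w z hz ps o oK oG oN hbit hf hw hA1 hA3 hJM hps
    refine MkC2.hyp' (c := ⟨c, K1, 4, good, Q1, E1, x1, cn⟩) (r1 := r1C σ j c.I.h c.I.q) st le_rfl hA1 hA3 hJM hps hf hw ?_ ?_
      (fun ω hω hwz => ?_) k3'
    · exact (Nat.le_add_right _ 2).trans w1
    · have := w2.le
      exact this.trans (Nat.sub_le _ _)
    · classical
      have h3 := hbit ω hω hwz
      unfold btC bit at h3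
      rw [decide_eq_true_iff] at h3
      exact h3

end Vale.Agent.P106.U.H205.CmpG
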