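import Vale.Agent.P127.U.Mic.Coll
import Vale.Agent.P127.U.Lam.Sel

/-!
# P106 / U / H205 : two copies and the slope of a line (helper205)

* `ind_fn_le` : a variable is equal to a given function of `U` at a light atom with probability at most `κ`.
* `near_le` : if in every class of `(U, G)` the points of `Bd` have the integer variable `tb` within `1`, then
  `P(Bd) ≤ P(atom ≥ κ) + 3 M κ`.
* `slope` : `κ` is on a line of slope `al` (own) in every class of `(U, G)` on the event `E`, and on a line of slope `A` in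
  every class of `U`: then `|A - al| ≤ (ρ₁ + ρ₂) / δ` on `E` outside `P(atom ≥ κ) + 3 M κ`.
* `event_le` : the same with `A` replaced by another value `g`.
* `atom_of_colp` : atoms from the collision probability.
-/

set_option autoImplicit false

namespace Vale.Agent.P106.U.H205

open Finset Vale.Agent.P127 Vale.Agent.P127.Stk Vale.Agent.P127.U Vale.Agent.P127.U.Pin Vale.Agent.P127.U.Mic

variable {Ω : Type} [Fintype Ω] {S υ ι : Type*}

theorem ind_mono' {p q : Prop} (h : p → q) : Law.ind p ≤ Law.ind q := Mic.ind_mono h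

/-- a variable is equal to a given function of `U` at a light atom with small probability -/
theorem ind_fn_le (P : Law Ω) (X : Ω → S) (U : Ω → υ) (f : υ → S) {κ : ℝ} (hκ : 0 ≤ κ) :
    P.ex (fun ω => Law.ind (X ω = f (U ω) ∧ cq P X U (X ω) (U ω) < κ)) ≤ κ := by
  classical
  rw [← ex_cond P U]
  have h3 : ∀ ω, 0 < P.w ω → (P.cond U (U ω)).ex
      (fun ω' => Law.ind (X ω' = f (U ω') ∧ cq P X U (X ω') (U ω') < κ)) ≤ κ := by
    intro ω hω
    have hz := P.pr_pos U hω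
    set R := P.cond U (U ω) with hR
    by_cases hl : cq P X U (f (U ω)) (U ω) < κ
    · have h4 : R.ex (fun ω' => Law.ind (X ω' = f (U ω') ∧ cq P X U (X ω') (U ω') < κ)) ≤
          R.ex (fun ω' => Law.ind (X ω' = f (U ω))) := by
        refine R.ex_mono fun ω' h' => ind_mono' fun hp => ?_
        obtain ⟨e1, e2⟩ := cond_supp P U hz h'
        rw [hp.1, e1]
      refine h4.trans ?_
      rw [← Law.pr_eq_ex, hR, ← cq_eq_cond P X U _ hz]
      exact hl.le
    · have h4 : R.ex (fun ω' => Law.ind (X ω' = f (U ω') ∧ cq P X U (X ω') (U ω') < κ)) ≤ R.ex (fun _ => κ) := by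
        refine R.ex_mono fun ω' h' => ?_
        obtain ⟨e1, e2⟩ := cond_supp P U hz h'
        rw [Law.ind_not]
        · exact hκ
        · rintro ⟨hp, hq⟩
          rw [hp, e1] at hq
          exact hl hq
      rwa [R.ex_const] at h4
  have h7 := P.ex_mono (f := fun ω => (P.cond U (U ω)).ex
    (fun ω' => Law.ind (X ω' = f (U ω') ∧ cq P X U (X ω') (U ω') < κ))) (g := fun _ => κ) h3
  rwa [P.ex_const] at h7

/-- **few blocks** -/
theorem near_le [Fintype ι] (P : Law Ω) (U : Ω → υ) (tb : Ω → ℤ) (G : Ω → ι) (Bd : Ω → Prop)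
    (hB : ∀ ω ω', 0 < P.w ω → 0 < P.w ω' → Bd ω → Bd ω' → U ω = U ω' → G ω = G ω' → |tb ω - tb ω'| ≤ 1)
    {κ : ℝ} (hκ : 0 ≤ κ) :
    P.ex (fun ω => Law.ind (Bd ω)) ≤
      P.ex (fun ω => Law.ind (κ ≤ cq P tb U (tb ω) (U ω))) + 3 * Fintype.card ι * κ := by
  classical
  -- the block of a class
  obtain ⟨b, hb⟩ : ∃ b : υ → ι → ℤ, ∀ ω, 0 < P.w ω → Bd ω → |tb ω - b (U ω) (G ω)| ≤ 1 := by
    have h0 : ∀ u g, ∃ z : ℤ, ∀ ω, 0 < P.w ω → Bd ω → U ω = u → G ω = g → |tb ω - z| ≤ 1 := by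
      intro u g
      by_cases hx : ∃ ω, 0 < P.w ω ∧ Bd ω ∧ U ω = u ∧ G ω = g
      · obtain ⟨ω0, h1, h2, h3, h4⟩ := hx
        exact ⟨tb ω0, fun ω a1 a2 a3 a4 => hB ω ω0 a1 h1 a2 h2 (a3.trans h3.symm) (a4.trans h4.symm)⟩
      · exact ⟨0, fun ω a1 a2 a3 a4 => absurd ⟨ω, a1, a2, a3, a4⟩ hx⟩
    choose b hb using h0
    exact ⟨b, fun ω h1 h2 => hb _ _ ω h1 h2 rfl rfl⟩
  set Lt : Ω → Prop := fun ω => cq P tb U (tb ω) (U ω) < κ with hLt
  have h1 : P.ex (fun ω => Law.ind (Bd ω)) ≤ P.ex (fun ω => Law.ind (κ ≤ cq P tb U (tb ω) (U ω)) +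
      ∑ g : ι, ∑ j : Fin 3, Law.ind (tb ω = b (U ω) g + ((j : ℤ) - 1) ∧ Lt ω)) := by
    refine P.ex_mono fun ω hω => ?_
    have hsum : ∀ (g : ι) (j : Fin 3), Law.ind (tb ω = b (U ω) g + ((j : ℤ) - 1) ∧ Lt ω) ≤
        ∑ g : ι, ∑ j : Fin 3, Law.ind (tb ω = b (U ω) g + ((j : ℤ) - 1) ∧ Lt ω) := by
      intro g j
      refine le_trans ?_ (Finset.single_le_sum (f := fun g => ∑ j : Fin 3, Law.ind (tb ω = b (U ω) g + ((j : ℤ) - 1) ∧ Lt ω))
        (fun g _ => Finset.sum_nonneg fun j _ => Mic.ind_nonneg _) (Finset.mem_univ g))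
      exact Finset.single_le_sum (f := fun j : Fin 3 => Law.ind (tb ω = b (U ω) g + ((j : ℤ) - 1) ∧ Lt ω))
        (fun j _ => Mic.ind_nonneg _) (Finset.mem_univ j)
    have hs0 : 0 ≤ ∑ g : ι, ∑ j : Fin 3, Law.ind (tb ω = b (U ω) g + ((j : ℤ) - 1) ∧ Lt ω) :=
      Finset.sum_nonneg fun g _ => Finset.sum_nonneg fun j _ => Mic.ind_nonneg _
    by_cases hbd : Bd ω
    · rw [Law.ind_of hbd]
      by_cases hl : Lt ω
      · have h2 := hb ω hω hbd
        rw [abs_le] at h2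
        have h3 : ∃ j : Fin 3, tb ω = b (U ω) (G ω) + ((j : ℤ) - 1) := by
          have h4 : tb ω - b (U ω) (G ω) = -1 ∨ tb ω - b (U ω) (G ω) = 0 ∨ tb ω - b (U ω) (G ω) = 1 := by omega
          rcases h4 with h4 | h4 | h4
          · refine ⟨0, ?_⟩
            simp only [Fin.val_zero, Nat.cast_zero]
            omega
          · refine ⟨1, ?_⟩
            simp only [Fin.val_one, Nat.cast_one]
            omega
          · refine ⟨2, ?_⟩
            simp only [Fin.val_two, Nat.cast_ofNat]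
            omega
        obtain ⟨j, hj⟩ := h3
        have h5 := hsum (G ω) j
        rw [Law.ind_of ⟨hj, hl⟩] at h5
        have h6 := Mic.ind_nonneg (κ ≤ cq P tb U (tb ω) (U ω))
        linarith
      · rw [Law.ind_of (p := κ ≤ cq P tb U (tb ω) (U ω)) (not_lt.1 hl)]
        linarith
    · rw [Law.ind_not hbd]
      have h6 := Mic.ind_nonneg (κ ≤ cq P tb U (tb ω) (U ω))
      linarith
  rw [P.ex_add] at h1
  have h2 : P.ex (fun ω => ∑ g : ι, ∑ j : Fin 3, Law.ind (tb ω = b (U ω) g + ((j : ℤ) - 1) ∧ Lt ω)) =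
      ∑ g : ι, ∑ j : Fin 3, P.ex (fun ω => Law.ind (tb ω = b (U ω) g + ((j : ℤ) - 1) ∧ Lt ω)) := by
    unfold Law.ex
    simp only [Finset.mul_sum]
    rw [Finset.sum_comm]
    refine Finset.sum_congr rfl fun g _ => ?_
    rw [Finset.sum_comm]
  have h3 : ∑ g : ι, ∑ j : Fin 3, P.ex (fun ω => Law.ind (tb ω = b (U ω) g + ((j : ℤ) - 1) ∧ Lt ω)) ≤
      ∑ _g : ι, ∑ _j : Fin 3, κ :=
    Finset.sum_le_sum fun g _ => Finset.sum_le_sum fun j _ =>
      ind_fn_le P tb U (fun u => b u g + ((j : ℤ) - 1)) hκ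
  rw [Finset.sum_const, Finset.sum_const, Finset.card_univ, Finset.card_univ, Fintype.card_fin, nsmul_eq_mul, nsmul_eq_mul] at h3
  rw [h2] at h1
  push_cast at h3
  linarith

/-- **two copies** : the slope of the line against the own slope -/
theorem slope [Fintype ι] (P : Law Ω) (U : Ω → υ) (tb : Ω → ℤ) (G : Ω → ι) (E : Ω → Prop) (t ka al A : Ω → ℝ)
    {δ ρ₁ ρ₂ κ : ℝ} (hδ : 0 < δ) (hκ : 0 ≤ κ)
    (ht : ∀ ω ω', 0 < P.w ω → 0 < P.w ω' → U ω = U ω' → 2 ≤ |tb ω - tb ω'| → δ ≤ |t ω - t ω'|)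
    (h1 : ∀ ω ω', 0 < P.w ω → 0 < P.w ω' → E ω → E ω' → U ω = U ω' → G ω = G ω' →
      |ka ω - ka ω' - al ω * (t ω - t ω')| ≤ ρ₁)
    (h2 : ∀ ω ω', 0 < P.w ω → 0 < P.w ω' → U ω = U ω' → |ka ω - ka ω' - A ω * (t ω - t ω')| ≤ ρ₂) :
    P.ex (fun ω => Law.ind (E ω ∧ (ρ₁ + ρ₂) / δ < |A ω - al ω|)) ≤
      P.ex (fun ω => Law.ind (κ ≤ cq P tb U (tb ω) (U ω))) + 3 * Fintype.card ι * κ := by
  refine near_le P U tb G _ ?_ hκ
  intro ω ω' hω hω' hB hB' hU hG
  by_contra hcon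
  rw [not_le] at hcon
  have h3 := ht ω ω' hω hω' hU (by omega)
  have h4 := h1 ω ω' hω hω' hB.1 hB'.1 hU hG
  have h5 := h2 ω ω' hω hω' hU
  have h6 := hB.2
  have h7 : |(A ω - al ω) * (t ω - t ω')| ≤ ρ₁ + ρ₂ := by
    have e : (A ω - al ω) * (t ω - t ω') = (ka ω - ka ω' - al ω * (t ω - t ω')) - (ka ω - ka ω' - A ω * (t ω - t ω')) := by
      ring
    rw [e]
    exact (abs_sub _ _).trans (by linarith)
  rw [abs_mul] at h7
  rw [div_lt_iff₀ hδ] at h6
  have h8 : |A ω - al ω| * δ ≤ |A ω - al ω| * |t ω - t ω'| := mul_le_mul_of_nonneg_left h3 (abs_nonneg _)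
  linarith

/-- atoms from the collision probability -/
theorem atom_of_colp (P : Law Ω) (X : Ω → S) (U : Ω → υ) {κ : ℝ} (hκ : 0 < κ) (h : colp P X U ≤ κ ^ 2) :
    P.ex (fun ω => Law.ind (κ ≤ cq P X U (X ω) (U ω))) ≤ κ := by
  have h1 : κ * P.ex (fun ω => Law.ind (κ ≤ cq P X U (X ω) (U ω))) ≤ colp P X U := by
    rw [← P.ex_const_mul]
    unfold colp
    refine P.ex_mono fun ω _ => ?_
    by_cases hp : κ ≤ cq P X U (X ω) (U ω)
    · rw [Law.ind_of hp, mul_one]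
      exact hp
    · rw [Law.ind_not hp, mul_zero]
      exact cq_nonneg P X U _ _
  have h2 : κ * P.ex (fun ω => Law.ind (κ ≤ cq P X U (X ω) (U ω))) ≤ κ * κ := by
    rw [← pow_two]
    exact h1.trans h
  exact le_of_mul_le_mul_left h2 hκ

/-- the event `|g - al| ≤ x + y` from the events `|A - al| ≤ x` on `E` and `|A - g| ≤ y` -/
theorem event_le (P : Law Ω) (E : Ω → Prop) (al A g : Ω → ℝ) {p a b x : ℝ} (y : Ω → ℝ)
    (hE : p ≤ P.ex (fun ω => Law.ind (E ω)))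
    (h1 : P.ex (fun ω => Law.ind (E ω ∧ x < |A ω - al ω|)) ≤ a)
    (h2 : P.ex (fun ω => Law.ind (y ω < |A ω - g ω|)) ≤ b) :
    p - a - b ≤ P.ex (fun ω => Law.ind (|g ω - al ω| ≤ x + y ω)) := by
  have h3 : P.ex (fun ω => Law.ind (E ω)) ≤ P.ex (fun ω => Law.ind (|g ω - al ω| ≤ x + y ω) +
      (Law.ind (E ω ∧ x < |A ω - al ω|) + Law.ind (y ω < |A ω - g ω|))) := by
    refine P.ex_mono fun ω _ => ?_
    have n1 := Mic.ind_nonneg (|g ω - al ω| ≤ x + y ω)
    have n2 := Mic.ind_nonneg (E ω ∧ x < |A ω - al ω|)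
    have n3 := Mic.ind_nonneg (y ω < |A ω - g ω|)
    by_cases hE : E ω
    · rw [Law.ind_of hE]
      by_cases ha : x < |A ω - al ω|
      · rw [Law.ind_of (p := E ω ∧ x < |A ω - al ω|) ⟨hE, ha⟩]
        linarith
      · by_cases hb : y ω < |A ω - g ω|
        · rw [Law.ind_of hb]
          linarith
        · rw [not_lt] at ha hb
          rw [Law.ind_of (p := |g ω - al ω| ≤ x + y ω)]
          · linarith
          · have e : g ω - al ω = (A ω - al ω) - (A ω - g ω) := by ring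
            rw [e]
            exact (abs_sub _ _).trans (by linarith)
    · rw [Law.ind_not hE]
      linarith
  rw [P.ex_add, P.ex_add] at h3
  linarith

end Vale.Agent.P106.U.H205
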