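import Vale.Agent.P127.U.CellD
import Vale.Agent.P106.U.H205.TwoCp

/-!
# P106 / U / H205 : COMPAT from the deterministic field `sw` (helper205)

All over a finite law `P`, letter `Z` of the ray side (it contains the ray and the time to `a` digits), time `T` (real), `κ` = own
`κ` of the label, `al` = slope of the line of the ray side, `alW` = own slope of the label; sign of `S3.Run` (`κ' - κ + al (T' - T)`).

* `line_own` : `P(|al - alW| > (ρ₁ + ρ₂) 2^(a+m)) ≤ P(atom of the time block ≥ κ₀) + 3 κ₀`.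
* `line_own_colp` : the same with the collision probability: `≤ 4 κ₀` if `colp ≤ κ₀²`.
* `val_own` : for a value `g` with `P(y < |al - g|) ≤ c`: `P(|g - alW| > (ρ₁ + ρ₂) 2^(a+m) + y) ≤ 4 κ₀ + c`.
* `exists_level` : choice of the level among many levels with `∑ colp ≤ e`.
* `down` : from the last level to all levels (`|gA j - gA i| ≤ K 2^a 2^-r`).
-/

set_option autoImplicit false

namespace Vale.Agent.P106.U.H205

open Finset Vale.Agent.P127 Vale.Agent.P127.Stk Vale.Agent.P127.U Vale.Agent.P127.U.Pin Vale.Agent.P127.U.Mic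
open Vale.Agent.P127.U.CellD (q2)

variable {Ω : Type} [Fintype Ω] {S ζ : Type*}

/-- two times in blocks at distance `≥ 2` -/
theorem time_sep {p : ℕ} {x y : ℝ} (h : 2 ≤ |fl1 p x - fl1 p y|) : q2 p ≤ |x - y| := by
  have h2 : (0 : ℝ) < 2 ^ p := by positivity
  have h3 : (2 : ℝ) ≤ |((fl1 p x : ℤ) : ℝ) - ((fl1 p y : ℤ) : ℝ)| := by exact_mod_cast h
  have f1 := Int.floor_le ((2 : ℝ) ^ p * x)
  have f2 := Int.lt_floor_add_one ((2 : ℝ) ^ p * x)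
  have f3 := Int.floor_le ((2 : ℝ) ^ p * y)
  have f4 := Int.lt_floor_add_one ((2 : ℝ) ^ p * y)
  unfold fl1 at h3
  have h4 : 1 ≤ |(2 : ℝ) ^ p * (x - y)| := by
    rw [mul_sub, le_abs]
    rcases le_abs.1 h3 with h5 | h5
    · left; linarith
    · right; linarith
  rw [abs_mul, abs_of_pos h2] at h4
  have h5 : q2 p * (2 ^ p * |x - y|) = |x - y| := by
    rw [← mul_assoc, mul_comm (q2 p), CellD.q2_mul_pow, one_mul]
  rw [← h5]
  have h6 := CellD.q2_pos p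
  nlinarith

/-- **slope of the line against the own slope** -/
theorem line_own (P : Law Ω) (Z : Ω → ζ) (T κ al alW : Ω → ℝ) {p : ℕ} {ρ₁ ρ₂ κ₀ : ℝ} (hκ : 0 ≤ κ₀)
    (h1 : ∀ ω ω', 0 < P.w ω → 0 < P.w ω' → Z ω = Z ω' → |κ ω' - κ ω + alW ω * (T ω' - T ω)| ≤ ρ₁)
    (h2 : ∀ ω ω', 0 < P.w ω → 0 < P.w ω' → Z ω = Z ω' → |κ ω' - κ ω + al ω * (T ω' - T ω)| ≤ ρ₂) :
    P.ex (fun ω => Law.ind ((ρ₁ + ρ₂) * 2 ^ p < |al ω - alW ω|)) ≤
      P.ex (fun ω => Law.ind (κ₀ ≤ cq P (fun ω => fl1 p (T ω)) Z (fl1 p (T ω)) (Z ω))) + 3 * κ₀ := by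
  have key := slope P Z (fun ω => fl1 p (T ω)) (fun _ => ()) (fun _ => True) T κ (fun ω => -alW ω) (fun ω => -al ω)
    (δ := q2 p) (ρ₁ := ρ₁) (ρ₂ := ρ₂) (κ := κ₀) (CellD.q2_pos p) hκ
    (fun ω ω' _ _ _ h => time_sep h)
    (fun ω ω' hω hω' _ _ e _ => by
      have h3 := h1 ω ω' hω hω' e
      rw [← abs_neg] at h3
      refine le_trans (le_of_eq ?_) h3
      congr 1
      ring)
    (fun ω ω' hω hω' e => by
      have h3 := h2 ω ω' hω hω' e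
      rw [← abs_neg] at h3
      refine le_trans (le_of_eq ?_) h3
      congr 1
      ring)
  have e1 : (ρ₁ + ρ₂) / q2 p = (ρ₁ + ρ₂) * 2 ^ p := by
    rw [div_eq_iff (CellD.q2_pos p).ne', mul_assoc, CellD.q2_mul_pow, mul_one]
  rw [e1] at key
  have e2 : ∀ ω, Law.ind (True ∧ (ρ₁ + ρ₂) * 2 ^ p < |(-al ω) - (-alW ω)|) =
      Law.ind ((ρ₁ + ρ₂) * 2 ^ p < |al ω - alW ω|) := fun ω => by
    have e3 : |(-al ω) - (-alW ω)| = |al ω - alW ω| := by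
      rw [← abs_neg]
      congr 1
      ring
    rw [e3, true_and]
  simp only [e2] at key
  refine key.trans (le_of_eq ?_)
  rw [Fintype.card_unit]
  push_cast
  ring

/-- the same with the collision probability -/
theorem line_own_colp (P : Law Ω) (Z : Ω → ζ) (T κ al alW : Ω → ℝ) {p : ℕ} {ρ₁ ρ₂ κ₀ : ℝ} (hκ : 0 < κ₀)
    (h1 : ∀ ω ω', 0 < P.w ω → 0 < P.w ω' → Z ω = Z ω' → |κ ω' - κ ω + alW ω * (T ω' - T ω)| ≤ ρ₁)
    (h2 : ∀ ω ω', 0 < P.w ω → 0 < P.w ω' → Z ω = Z ω' → |κ ω' - κ ω + al ω * (T ω' - T ω)| ≤ ρ₂)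
    (h3 : colp P (fun ω => fl1 p (T ω)) Z ≤ κ₀ ^ 2) :
    P.ex (fun ω => Law.ind ((ρ₁ + ρ₂) * 2 ^ p < |al ω - alW ω|)) ≤ 4 * κ₀ := by
  have := line_own P Z T κ al alW hκ.le h1 h2 (p := p)
  have h4 := atom_of_colp P (fun ω => fl1 p (T ω)) Z hκ h3
  linarith

/-- **a value of the slope against the own slope** -/
theorem val_own (P : Law Ω) (Z : Ω → ζ) (T κ al alW g : Ω → ℝ) (y : Ω → ℝ) {p : ℕ} {ρ₁ ρ₂ κ₀ c : ℝ} (hκ : 0 < κ₀)
    (h1 : ∀ ω ω', 0 < P.w ω → 0 < P.w ω' → Z ω = Z ω' → |κ ω' - κ ω + alW ω * (T ω' - T ω)| ≤ ρ₁)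
    (h2 : ∀ ω ω', 0 < P.w ω → 0 < P.w ω' → Z ω = Z ω' → |κ ω' - κ ω + al ω * (T ω' - T ω)| ≤ ρ₂)
    (h3 : colp P (fun ω => fl1 p (T ω)) Z ≤ κ₀ ^ 2)
    (h4 : P.ex (fun ω => Law.ind (y ω < |al ω - g ω|)) ≤ c) :
    P.ex (fun ω => Law.ind ((ρ₁ + ρ₂) * 2 ^ p + y ω < |g ω - alW ω|)) ≤ 4 * κ₀ + c := by
  have h5 := line_own_colp P Z T κ al alW hκ h1 h2 h3
  have h6 : P.ex (fun ω => Law.ind ((ρ₁ + ρ₂) * 2 ^ p + y ω < |g ω - alW ω|)) ≤
      P.ex (fun ω => Law.ind ((ρ₁ + ρ₂) * 2 ^ p < |al ω - alW ω|) + Law.ind (y ω < |al ω - g ω|)) := by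
    refine P.ex_mono fun ω _ => ?_
    have n1 := Mic.ind_nonneg ((ρ₁ + ρ₂) * 2 ^ p < |al ω - alW ω|)
    have n2 := Mic.ind_nonneg (y ω < |al ω - g ω|)
    by_cases ha : (ρ₁ + ρ₂) * 2 ^ p < |al ω - alW ω|
    · rw [Law.ind_of ha]
      have := Mic.ind_le_one ((ρ₁ + ρ₂) * 2 ^ p + y ω < |g ω - alW ω|)
      linarith
    · by_cases hb : y ω < |al ω - g ω|
      · rw [Law.ind_of hb]
        have := Mic.ind_le_one ((ρ₁ + ρ₂) * 2 ^ p + y ω < |g ω - alW ω|)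
        linarith
      · rw [not_lt] at ha hb
        rw [Law.ind_not (p := (ρ₁ + ρ₂) * 2 ^ p + y ω < |g ω - alW ω|)]
        · linarith
        · rw [not_lt]
          have e : g ω - alW ω = (al ω - alW ω) - (al ω - g ω) := by ring
          rw [e]
          exact (abs_sub _ _).trans (by linarith)
  rw [P.ex_add] at h6
  linarith

/-- **choice of the level** : among `≥ N₀` levels with `∑ colp ≤ κ₀² N₀` one has `colp ≤ κ₀²` -/
theorem exists_level {ι : Type*} (I : Finset ι) (x : ι → ℝ) {N₀ κ₀ : ℝ} (hI : I.Nonempty) (hN : N₀ ≤ I.card)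
    (hs : ∑ i ∈ I, x i ≤ κ₀ ^ 2 * N₀) : ∃ i ∈ I, x i ≤ κ₀ ^ 2 := by
  by_contra hcon
  push Not at hcon
  have h1 : ∑ _i ∈ I, κ₀ ^ 2 < ∑ i ∈ I, x i := Finset.sum_lt_sum_of_nonempty hI hcon
  rw [Finset.sum_const, nsmul_eq_mul] at h1
  have h2 : κ₀ ^ 2 * N₀ ≤ I.card * κ₀ ^ 2 := by
    rw [mul_comm]
    exact mul_le_mul_of_nonneg_right hN (sq_nonneg _)
  linarith

/-- **from the last level to all levels** : `|g_i - alW| 2^-A' ≤ K' 2^-r_i` if `|g_j - g_i| 2^-a_j ≤ K 2^-r_i` and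
`|g_j - alW| ≤ K₂ 2^(a_j + e) 2^-r_j`, `a_j + e ≤ A'`, `r_i ≤ r_j` -/
theorem down {gi gj alW K K2 : ℝ} {aj e A' ri rj : ℕ} (hK : 0 ≤ K) (hK2 : 0 ≤ K2) (hA : aj + e ≤ A') (hr : ri ≤ rj)
    (h1 : |gj - gi| * q2 aj ≤ K * q2 ri) (h2 : |gj - alW| ≤ K2 * (2 ^ (aj + e) * q2 rj)) :
    |gi - alW| * q2 A' ≤ (K + K2) * q2 ri := by
  have q1 := CellD.q2_pos A'
  have q3 : q2 A' ≤ q2 aj := CellD.q2_le (by omega)
  have q4 : q2 A' ≤ q2 (aj + e) := CellD.q2_le hA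
  have q5 : q2 rj ≤ q2 ri := CellD.q2_le hr
  have h3 : |gi - alW| ≤ |gj - gi| + |gj - alW| := by
    have e1 : gi - alW = (gj - alW) - (gj - gi) := by ring
    rw [e1]
    exact (abs_sub _ _).trans (by linarith)
  have h4 : |gj - gi| * q2 A' ≤ K * q2 ri := (mul_le_mul_of_nonneg_left q3 (abs_nonneg _)).trans h1
  have h5 : |gj - alW| * q2 A' ≤ K2 * q2 ri := by
    have h6 : |gj - alW| * q2 A' ≤ K2 * (2 ^ (aj + e) * q2 rj) * q2 (aj + e) :=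
      mul_le_mul h2 q4 q1.le (by have := CellD.q2_pos rj; positivity)
    have h7 : K2 * (2 ^ (aj + e) * q2 rj) * q2 (aj + e) = K2 * q2 rj := by
      have := CellD.q2_mul_pow (aj + e)
      calc K2 * (2 ^ (aj + e) * q2 rj) * q2 (aj + e) = K2 * q2 rj * (2 ^ (aj + e) * q2 (aj + e)) := by ring
        _ = _ := by rw [this, mul_one]
    rw [h7] at h6
    exact h6.trans (mul_le_mul_of_nonneg_left q5 hK2)
  nlinarith

end Vale.Agent.P106.U.H205
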