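import Vale.Agent.P106.U.H565.SelC
import Vale.Agent.P106.U.H61.Mac

/-!
# P106 / U / H205 : transport to the conditional law `Q = P.cond Z z` (helper205)

`Z` = word of the W-side (a function of the letter `G` of the closure), `z` = its value.

* `fn_cond` : `Fn` is kept; `supp` : the support of `Q` is the part `Z = z` of the support of `P`.
* `prE_cond_fn`, `pr_cond_fn`, `unk_cond`, `kno_cond` : events inside one atom of `G` keep their relative mass.
* `avg_ex, avg_prE, avg_hc, avg_mi, avg_colp` (`Z` arbitrary: `Z` goes into the condition), `.._fn` (`Z` a function of the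
  condition: equality without a new letter), `avg_hc_le`.
* `avg_sum` : averages of finite sums; `sum_hc_avg_le`, `sum_mi_avg`.
* `pick` : one value of `Z` with finitely many averages at once, and weight.
-/

set_option autoImplicit false

namespace Vale.Agent.P106.U.H205.Tra

open Finset Vale.Agent.P127 Vale.Agent.P127.Stk Vale.Agent.P127.U
open Vale.Agent.P127.U.Nonat Vale.Agent.P127.U.YPat Vale.Agent.P127.U.JSB

variable {Ω : Type} [Fintype Ω]

section gen

variable {A B C V W : Type*} {P : Law Ω}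

theorem fn_cond (Z : Ω → V) (z : V) {X : Ω → A} {Y : Ω → B} (h : Fn P X Y) : Fn (P.cond Z z) X Y :=
  fun ω ω' hω hω' e => h ω ω' (cond_supp P Z z hω) (cond_supp P Z z hω') e

/-- on the support of the conditional law the word is constant: it may be added to the letter -/
theorem fn_cond_pair {Z : Ω → V} {z : V} (hz : 0 < P.pr Z z) {X : Ω → A} {Y : Ω → B}
    (h : Fn P X (fun ω => (Y ω, Z ω))) : Fn (P.cond Z z) X Y := fun ω ω' hω hω' e =>
  h ω ω' (cond_supp P Z z hω) (cond_supp P Z z hω')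
    (Prod.ext e ((cond_supp' P Z z hz hω).trans (cond_supp' P Z z hz hω').symm))

theorem supp {Z : Ω → V} {z : V} (hz : 0 < P.pr Z z) {ω : Ω} : 0 < (P.cond Z z).w ω ↔ 0 < P.w ω ∧ Z ω = z := by
  classical
  constructor
  · exact fun h => ⟨cond_supp P Z z h, cond_supp' P Z z hz h⟩
  · rintro ⟨h1, h2⟩
    rw [P.cond_w Z z hz, if_pos h2]
    exact div_pos h1 hz

/-- weights: the conditional law is dominated -/
theorem dom {Z : Ω → V} {z : V} (hz : 0 < P.pr Z z) (ω : Ω) : P.pr Z z * (P.cond Z z).w ω ≤ P.w ω := by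
  classical
  rw [P.cond_w Z z hz]
  split_ifs with h
  · rw [mul_div_cancel₀ _ hz.ne']
  · rw [mul_zero]
    exact P.nn ω

theorem prE_nn (P : Law Ω) (E : Ω → Prop) : 0 ≤ prE P E := by
  classical
  unfold prE
  exact Finset.sum_nonneg fun ω _ => P.nn ω

theorem prE_congr' {E E' : Ω → Prop} (h : ∀ ω, 0 < P.w ω → (E ω ↔ E' ω)) : prE P E = prE P E' := by
  classical
  unfold prE
  rw [Finset.sum_filter, Finset.sum_filter]
  refine Finset.sum_congr rfl fun ω _ => ?_
  rcases (P.nn ω).eq_or_lt with h0 | h0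
  · rw [← h0]
    split_ifs <;> rfl
  · by_cases hE : E ω
    · rw [if_pos hE, if_pos ((h ω h0).1 hE)]
    · rw [if_neg hE, if_neg fun h' => hE ((h ω h0).2 h')]

/-- an event inside one atom of a letter `G` which determines the word -/
theorem prE_cond_fn {G : Ω → W} {Z : Ω → V} (h : ∀ ω ω', 0 < P.w ω → 0 < P.w ω' → G ω = G ω' → Z ω = Z ω') {z : V}
    (hz : 0 < P.pr Z z) {ω : Ω} (hω : 0 < (P.cond Z z).w ω) (E : Ω → Prop) :
    prE (P.cond Z z) (fun ω' => G ω' = G ω ∧ E ω') = prE P (fun ω' => G ω' = G ω ∧ E ω') / P.pr Z z := by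
  rw [prE_cond P Z z hz]
  congr 1
  refine prE_congr' fun ω' hω' => ?_
  constructor
  · exact fun e => e.1
  · intro e
    refine ⟨e, ?_⟩
    rw [← cond_supp' P Z z hz hω]
    exact h ω' ω hω' (cond_supp P Z z hω) e.1

theorem pr_eq_prE' (G : Ω → W) (g : W) : P.pr G g = prE P (fun ω => G ω = g) := by
  classical
  unfold Law.pr prE
  refine Finset.sum_congr ?_ fun _ _ => rfl
  ext ω
  simp

theorem pr_cond_fn {G : Ω → W} {Z : Ω → V} (h : ∀ ω ω', 0 < P.w ω → 0 < P.w ω' → G ω = G ω' → Z ω = Z ω') {z : V}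
    (hz : 0 < P.pr Z z) {ω : Ω} (hω : 0 < (P.cond Z z).w ω) :
    (P.cond Z z).pr G (G ω) = P.pr G (G ω) / P.pr Z z := by
  have h1 := prE_cond_fn h hz hω (fun _ => True)
  rw [pr_eq_prE', pr_eq_prE']
  refine Eq.trans ?_ (h1.trans ?_)
  · exact prE_congr' fun ω' _ => by simp
  · congr 1
    exact prE_congr' fun ω' _ => by simp

/-- **the field `unk`** : an event of relative mass `< 1 - c` in the atom of `G` -/
theorem unk_cond {G : Ω → W} {Z : Ω → V} (h : ∀ ω ω', 0 < P.w ω → 0 < P.w ω' → G ω = G ω' → Z ω = Z ω') {z : V}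
    (hz : 0 < P.pr Z z) {ω : Ω} (hω : 0 < (P.cond Z z).w ω) {E : Ω → Prop} {c : ℝ}
    (hu : prE P (fun ω' => G ω' = G ω ∧ E ω') < (1 - c) * P.pr G (G ω)) :
    prE (P.cond Z z) (fun ω' => G ω' = G ω ∧ E ω') < (1 - c) * (P.cond Z z).pr G (G ω) := by
  rw [prE_cond_fn h hz hω, pr_cond_fn h hz hω, ← mul_div_assoc]
  exact div_lt_div_of_pos_right hu hz

theorem unk_cond' {G : Ω → W} {Z : Ω → V} (h : ∀ ω ω', 0 < P.w ω → 0 < P.w ω' → G ω = G ω' → Z ω = Z ω') {z : V}
    (hz : 0 < P.pr Z z) {ω : Ω} (hω : 0 < (P.cond Z z).w ω) {E : Ω → Prop} {c : ℝ}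
    (hu : prE P (fun ω' => G ω' = G ω ∧ E ω') ≤ c * P.pr G (G ω)) :
    prE (P.cond Z z) (fun ω' => G ω' = G ω ∧ E ω') ≤ c * (P.cond Z z).pr G (G ω) := by
  rw [prE_cond_fn h hz hω, pr_cond_fn h hz hω, ← mul_div_assoc]
  exact div_le_div_of_nonneg_right hu hz.le

/-- an exceptional event which does not meet the support -/
theorem prE_zero {E : Ω → Prop} (h : ∀ ω, 0 < P.w ω → ¬ E ω) : prE P E = 0 := by
  classical
  unfold prE
  refine Finset.sum_eq_zero fun ω hω => ?_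
  rw [Finset.mem_filter] at hω
  by_contra hcon
  exact h ω (lt_of_le_of_ne (P.nn ω) (Ne.symm hcon)) hω.2

end gen

/-! ### averages over the values of the word -/

section avg

variable {A B C V : Type*} (P : Law Ω) (Z : Ω → V)

theorem avg_ex (f : Ω → ℝ) : P.ex (fun ω => (P.cond Z (Z ω)).ex f) = P.ex f := by
  rw [P.ex_comp Z (fun x => (P.cond Z x).ex f)]
  unfold Law.ex
  simp only [Finset.mul_sum]
  rw [Finset.sum_comm]
  refine Finset.sum_congr rfl fun ω _ => ?_
  rw [← JSB.cond_avg P Z ω, Finset.sum_mul]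
  exact Finset.sum_congr rfl fun x _ => by ring

theorem prE_ex (P : Law Ω) (E : Ω → Prop) : prE P E = P.ex (fun ω => Law.ind (E ω)) := by
  classical
  unfold prE Law.ex
  rw [Finset.sum_filter]
  refine Finset.sum_congr rfl fun ω _ => ?_
  by_cases h : E ω
  · rw [if_pos h]
    show _ = P.w ω * Law.ind (E ω)
    rw [Law.ind_of h, mul_one]
  · rw [if_neg h]
    show _ = P.w ω * Law.ind (E ω)
    rw [Law.ind_not h, mul_zero]

theorem avg_prE (E : Ω → Prop) : P.ex (fun ω => prE (P.cond Z (Z ω)) E) = prE P E := by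
  rw [prE_ex P, ← avg_ex P Z (fun ω => Law.ind (E ω))]
  exact Law.ex_congr P fun ω _ => prE_ex _ _

/-- an event which depends on the value of the word -/
theorem avg_prE' (E : V → Ω → Prop) : P.ex (fun ω => prE (P.cond Z (Z ω)) (E (Z ω))) = prE P (fun ω => E (Z ω) ω) := by
  rw [prE_ex P, ← avg_ex P Z (fun ω => Law.ind (E (Z ω) ω))]
  refine Law.ex_congr P fun ω hω => ?_
  rw [prE_ex]
  refine Law.ex_congr _ fun ω' hω' => ?_
  rw [cond_supp' P Z (Z ω) (P.pr_pos Z hω) hω']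

theorem avg_hc (X : Ω → A) (Y : Ω → B) :
    P.ex (fun ω => Stk.hc (P.cond Z (Z ω)) X Y) = Stk.hc P X (fun ω => (Y ω, Z ω)) := by
  rw [P.ex_comp Z (fun x => Stk.hc (P.cond Z x) X Y), JSB.hc_cond_sum]

theorem avg_hc_le (X : Ω → A) (Y : Ω → B) : P.ex (fun ω => Stk.hc (P.cond Z (Z ω)) X Y) ≤ Stk.hc P X Y := by
  rw [avg_hc]
  exact Stk.hc_mono_right P X fun _ _ _ _ e => (Prod.mk.inj e).1

/-- the condition determines the word -/
theorem avg_hc_fn (X : Ω → A) {Y : Ω → B} (h : Fn P Z Y) :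
    P.ex (fun ω => Stk.hc (P.cond Z (Z ω)) X Y) = Stk.hc P X Y := by
  rw [avg_hc]
  refine le_antisymm (Stk.hc_mono_right P X fun _ _ _ _ e => (Prod.mk.inj e).1)
    (Stk.hc_mono_right P X fun ω ω' hω hω' e => Prod.ext e (h ω ω' hω hω' e))

theorem avg_mi (X : Ω → A) (Y : Ω → B) (K : Ω → C) :
    P.ex (fun ω => Stk.mi (P.cond Z (Z ω)) X Y K) = Stk.mi P X Y (fun ω => (K ω, Z ω)) := by
  unfold Stk.mi
  rw [P.ex_sub, avg_hc, avg_hc]
  congr 1
  refine Stk.hc_congr P ?_ ?_ ?_ ?_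
  · exact fun _ _ _ _ e => (Prod.mk.inj e).1
  · exact fun _ _ _ _ e => (Prod.mk.inj e).1
  · intro _ _ _ _ e
    simp only [Prod.mk.injEq] at e ⊢
    tauto
  · intro _ _ _ _ e
    simp only [Prod.mk.injEq] at e ⊢
    tauto

/-- the condition determines the word -/
theorem avg_mi_fn (X : Ω → A) (Y : Ω → B) {K : Ω → C} (h : Fn P Z K) :
    P.ex (fun ω => Stk.mi (P.cond Z (Z ω)) X Y K) = Stk.mi P X Y K := by
  unfold Stk.mi
  rw [P.ex_sub, avg_hc_fn P Z X h, avg_hc_fn P Z X fun ω ω' hω hω' e => h ω ω' hω hω' (Prod.mk.inj e).2]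

/-- letters which depend on the value of the word -/
theorem avg_hc' (X : V → Ω → A) (Y : V → Ω → B) :
    P.ex (fun ω => Stk.hc (P.cond Z (Z ω)) (X (Z ω)) (Y (Z ω))) =
      Stk.hc P (fun ω => X (Z ω) ω) (fun ω => (Y (Z ω) ω, Z ω)) := by
  rw [← avg_hc]
  refine Law.ex_congr P fun ω hω => ?_
  have hs : ∀ ω', 0 < (P.cond Z (Z ω)).w ω' → Z ω' = Z ω := fun ω' h' => cond_supp' P Z (Z ω) (P.pr_pos Z hω) h'
  refine Stk.hc_congr _ ?_ ?_ ?_ ?_
  · intro ω' ω'' h' h'' e
    have e' : X (Z ω') ω' = X (Z ω'') ω'' := (Prod.mk.inj e).1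
    rwa [hs ω' h', hs ω'' h''] at e'
  · intro ω' ω'' h' h'' e
    show X (Z ω') ω' = X (Z ω'') ω''
    rw [hs ω' h', hs ω'' h'']
    exact (Prod.mk.inj e).1
  · intro ω' ω'' h' h'' e
    have e' : Y (Z ω') ω' = Y (Z ω'') ω'' := e
    rwa [hs ω' h', hs ω'' h''] at e'
  · intro ω' ω'' h' h'' e
    show Y (Z ω') ω' = Y (Z ω'') ω''
    rw [hs ω' h', hs ω'' h'']
    exact e

end avg

end Vale.Agent.P106.U.H205.Tra
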