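import Vale.Agent.P106.U.H425.SwF
import Vale.Agent.P106.U.H425.LightT
import Vale.Agent.P106.U.H205.CmpSw
import Vale.Agent.P106.U.H205.Tra

/-!
# P106 / U / H205 : [CMP1] the COMPAT event under word 1 and the field `agW` (helper205)

Before the second word there is no `Run.Ok` (its field `agW` is what COMPAT has to give), so everything is over the data of the
end label alone.

* `FwB` : the end label in the coordinates of the path (`FWW, FWn, Cl, Cp` of `Run.Ok`, `1 ≤ K cN`, `|p| ≤ 1`).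
* `swB` : 425's field in these coordinates, from `Sw D a (r + j)`.
* `time_lev` : light time blocks of the levels for a near-extremal law (levels in blocks of `m` digits).
* `compat_pr` : ONE level `a*`, the same for all letters: for every slope `g` within `M 2^a 2^-rk` of the slope of the line,
  `P(|g - alW| > (3 + M) 2^(m a* + m) 2^-min(rk, r1)) ≤ 4 κ₀`.
* `gW_of` : at the points of the event the slopes of all lower levels agree with `alW` (field `gW` of 785's `Hy`).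
-/

set_option autoImplicit false

namespace Vale.Agent.P106.U.H205

open Finset Vale.Agent.P127 Vale.Agent.P127.Stk Vale.Agent.P127.U Vale.Agent.P106.W Vale.Agent.P106.K Vale.Agent.P106.U
open Vale.Agent.P127.U.CellD (q2 rd)
open Vale.Agent.P127.U.Mic (colp)
open Vale.Agent.P122.C2 (fw fn)
open Vale.Agent.P106.U.H425

/-! ### the end label in the coordinates of the path -/

/-- **the end label** : ray, time, label, angle of the coordinates, functional, ray and own slope in the coordinates -/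
structure FwB {Ω : Type} [Fintype Ω] (K θ : ℝ) (h q : ℕ) (Q : Law Ω) (ry : Ω → Ry) (t : Ω → ℝ) (W : Ω → Cbx)
    (FW : Ω → Cell.Fu) (l : Ω → Cell.Ray) (pp : Ω → ℝ) : Prop where
  Cl : ∀ ω, 0 < Q.w ω → l ω = H786.Adp.toR θ (ry ω)
  FWW : ∀ ω, 0 < Q.w ω → ∃ ρ : ℝ, 1 ≤ K * |ρ| ∧ |ρ| ≤ K ∧
    FW ω = ⟨ρ * (H786.Adp.toF θ (rd h (t ω)) (H786.Adp.fuW h (W ω) (t ω))).ga,
      ρ * (H786.Adp.toF θ (rd h (t ω)) (H786.Adp.fuW h (W ω) (t ω))).ph,
      ρ * (H786.Adp.toF θ (rd h (t ω)) (H786.Adp.fuW h (W ω) (t ω))).ka,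
      ρ * (H786.Adp.toF θ (rd h (t ω)) (H786.Adp.fuW h (W ω) (t ω))).al⟩
  FWn : ∀ ω, 0 < Q.w ω → |(FW ω).cN (l ω) (rd h (t ω)) ^ 2 + (FW ω).cV (l ω) (rd h (t ω)) ^ 2 - 1| ≤ K * q2 q
  Cp : ∀ ω, 0 < Q.w ω → pp ω * (FW ω).cN (l ω) (rd h (t ω)) = (FW ω).cV (l ω) (rd h (t ω))
  n1 : ∀ ω, 0 < Q.w ω → 1 ≤ 2 * K * (FW ω).cN (l ω) (rd h (t ω))
  p1 : ∀ ω, 0 < Q.w ω → |pp ω| ≤ 1
  k1 : ∀ ω, 0 < Q.w ω → |(W ω).κ| ≤ K

variable {Ω : Type} [Fintype Ω]

theorem FwB.mono {K θ : ℝ} {h q : ℕ} {Q Q' : Law Ω} {ry : Ω → Ry} {t : Ω → ℝ} {W : Ω → Cbx}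
    {FW : Ω → Cell.Fu} {l : Ω → Cell.Ray} {pp : Ω → ℝ} (H : FwB K θ h q Q ry t W FW l pp)
    (hs : ∀ ω, 0 < Q'.w ω → 0 < Q.w ω) : FwB K θ h q Q' ry t W FW l pp :=
  ⟨fun ω h => H.Cl ω (hs ω h), fun ω h => H.FWW ω (hs ω h), fun ω h => H.FWn ω (hs ω h), fun ω h => H.Cp ω (hs ω h),
    fun ω h => H.n1 ω (hs ω h), fun ω h => H.p1 ω (hs ω h), fun ω h => H.k1 ω (hs ω h)⟩

/-- **425's field in the coordinates of the path**, without the record -/
theorem swB {K θ : ℝ} {h q : ℕ} {Q : Law Ω} {ry : Ω → Ry} {t : Ω → ℝ} {W : Ω → Cbx}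
    {FW : Ω → Cell.Fu} {l : Ω → Cell.Ray} {pp : Ω → ℝ} (H : FwB K θ h q Q ry t W FW l pp) (hK : 1 ≤ K)
    {D : ℝ} (hD : 0 ≤ D) {a r j : ℕ} (hS : Sw D a (r + j) h Q ry t W) (hj : 73 * K ^ 9 * (D + 1) ≤ 2 ^ j)
    (hq : r + j ≤ q) {ω ω' : Ω} (hω : 0 < Q.w ω) (hω' : 0 < Q.w ω') (hl : ry ω = ry ω')
    (ht : fl1 a (t ω) = fl1 a (t ω')) :
    |pp ω' - pp ω| ≤ q2 r ∧ |(FW ω').ka - (FW ω).ka + (FW ω).al * (rd h (t ω') - rd h (t ω))| ≤ q2 r := by
  have hK0 : 0 < K := by linarith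
  have hK9 : K ≤ K ^ 9 := le_self_pow₀ hK (by norm_num)
  have hK8 : 1 ≤ K ^ 8 := one_le_pow₀ hK
  have hp0 : (0 : ℝ) < (1 / 2) ^ (r + j) := by positivity
  have hqj : q2 (r + j) = (1 / 2 : ℝ) ^ (r + j) := rfl
  set δ : ℝ := D * (1 / 2 : ℝ) ^ (r + j) with hδd
  have hδ : 0 ≤ δ := by positivity
  have htot : 73 * K ^ 9 * (D + 1) * q2 (r + j) ≤ q2 r := by
    rw [CellD.q2_add]
    have h1 := mul_le_mul_of_nonneg_right hj (CellD.q2_pos j).le
    rw [CellD.q2_mul_pow] at h1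
    have h2 := mul_le_mul_of_nonneg_right h1 (CellD.q2_pos r).le
    nlinarith
  have hqr1 : q2 r ≤ 1 := by
    unfold q2
    exact pow_le_one₀ (by norm_num) (by norm_num)
  have hδ1 : 73 * K ^ 9 * δ + 73 * K ^ 9 * q2 (r + j) ≤ q2 r := by
    refine le_trans (le_of_eq ?_) htot
    rw [hδd, hqj]
    ring
  have hqq : q2 q ≤ q2 (r + j) := CellD.q2_le hq
  have hqq0 := (CellD.q2_pos q).le
  have hqr0 := (CellD.q2_pos (r + j)).le
  have h9d : 0 ≤ K ^ 9 * δ := by positivity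
  have h9q : 0 ≤ K ^ 9 * q2 (r + j) := by positivity
  have hKq : K * q2 q ≤ 1 := by
    have h1 : K * q2 q ≤ K ^ 9 * q2 (r + j) := mul_le_mul hK9 hqq hqq0 (by positivity)
    linarith
  have hsmd : 8 * K ^ 2 * δ ≤ 1 := by
    have h1 : K ^ 2 * δ ≤ K ^ 9 * δ := mul_le_mul_of_nonneg_right (pow_le_pow_right₀ hK (by norm_num)) hδ
    linarith
  have etW : ∀ ω, rd h (t ω) = qa h (t ω) := fun _ => rfl
  -- the data of one point
  have hdat : ∀ ω, 0 < Q.w ω → ∃ ρ : ℝ, 1 ≤ K * |ρ| ∧ |ρ| ≤ K ∧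
      1 ≤ 2 * K * (ρ * fn θ (nrm (W ω) (bl h (ry ω) (t ω)))) ∧
      |ρ ^ 2 * (fn θ (nrm (W ω) (bl h (ry ω) (t ω))) ^ 2 +
        fw θ (nrm (W ω) (bl h (ry ω) (t ω))) ^ 2) - 1| ≤ K * q2 q ∧
      pp ω * fn θ (nrm (W ω) (bl h (ry ω) (t ω))) = -fw θ (nrm (W ω) (bl h (ry ω) (t ω))) ∧
      (FW ω).ka = -(ρ * (W ω).κ) ∧ (FW ω).al = ρ * (2 * (W ω).α * 2 ^ h) := by
    intro ω hω
    obtain ⟨ρ, r1, r2, r3⟩ := H.FWW ω hω
    have hl := H.Cl ω hω
    have hcov : ∀ k, (H786.Adp.fuW h (W ω) (t ω)).cov (ry ω) k =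
        nrm (W ω) (bl h (ry ω) (t ω)) k := by
      intro k
      rw [H786.Adp.fuW_cov, H428.nrm_eq]
      rfl
    have hcov' : (H786.Adp.fuW h (W ω) (t ω)).cov (ry ω) = nrm (W ω) (bl h (ry ω) (t ω)) := funext hcov
    have eN : (FW ω).cN (l ω) (rd h (t ω)) = ρ * fn θ (nrm (W ω) (bl h (ry ω) (t ω))) := by
      have g1 := H786.Adp.toF_cN θ (rd h (t ω)) (H786.Adp.fuW h (W ω) (t ω)) (ry ω)
      rw [hcov'] at g1
      rw [← g1, r3, hl]
      simp only [Cell.Fu.cN]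
      ring
    have eV : (FW ω).cV (l ω) (rd h (t ω)) = -(ρ * fw θ (nrm (W ω) (bl h (ry ω) (t ω)))) := by
      have g1 := H786.Adp.toF_cV θ (rd h (t ω)) (H786.Adp.fuW h (W ω) (t ω)) (ry ω)
      rw [hcov'] at g1
      have g2 : (FW ω).cV (l ω) (rd h (t ω)) = ρ * (H786.Adp.toF θ (rd h (t ω))
          (H786.Adp.fuW h (W ω) (t ω))).cV (H786.Adp.toR θ (ry ω)) (rd h (t ω)) := by
        rw [r3, hl]
        simp only [Cell.Fu.cV]
        ring
      rw [g2, g1]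
      ring
    have hρ0 : ρ ≠ 0 := by
      rintro rfl
      rw [abs_zero, mul_zero] at r1
      linarith
    refine ⟨ρ, r1, r2, ?_, ?_, ?_, ?_, ?_⟩
    · rw [← eN]
      exact H.n1 ω hω
    · have g1 := H.FWn ω hω
      rw [eN, eV] at g1
      refine le_trans (le_of_eq ?_) g1
      congr 1
      ring
    · have g1 := H.Cp ω hω
      rw [eN, eV] at g1
      have g2 : ρ * (pp ω * fn θ (nrm (W ω) (bl h (ry ω) (t ω)))) =
          ρ * -fw θ (nrm (W ω) (bl h (ry ω) (t ω))) := by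
        linear_combination g1
      exact mul_left_cancel₀ hρ0 g2
    · rw [r3]
      simp only [H786.Adp.toF, H786.Adp.fuW, H786.Adp.unlev, H786.fuB]
      rw [etW]
      ring
    · rw [r3]
      simp only [H786.Adp.toF, H786.Adp.fuW, H786.Adp.unlev, H786.fuB]
      ring
  obtain ⟨σ, hσ, n1, n2, n3⟩ := hS.ag ω ω' hω hω' hl ht
  obtain ⟨ρ, a1, a2, a3, a4, a5, a6, a7⟩ := hdat ω hω
  obtain ⟨ρ', b1, b2, b3, b4, b5, b6, b7⟩ := hdat ω' hω'
  constructor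
  · have g1 := slope_num hK a2 a3 a5 b5 (H.p1 ω' hω') (fn_sub θ σ _ _ n1) (fw_sub θ σ _ _ n1)
    refine g1.trans ?_
    have h1 : K ^ 2 * δ ≤ K ^ 9 * δ := mul_le_mul_of_nonneg_right (pow_le_pow_right₀ hK (by norm_num)) hδ
    have h2 : 8 * K ^ 2 * δ = 8 * (K ^ 2 * δ) := by ring
    linarith
  · have g1 := fac_num hK hδ hσ hKq a2 a1 b2 b1 a3 b3 a4 b4 (fn_sub θ σ _ _ n1) (fw_sub θ σ _ _ n1) hsmd
    have e : (FW ω').ka - (FW ω).ka + (FW ω).al * (rd h (t ω') - rd h (t ω)) =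
        ρ * ((W ω).κ - 2 * (2 ^ h * (qa h (t ω) - qa h (t ω'))) * (W ω).α - σ * (W ω').κ) +
          (ρ * σ - ρ') * (W ω').κ := by
      rw [a6, a7, b6, etW, etW]
      ring
    rw [e]
    have g2 := abs_add_le (ρ * ((W ω).κ - 2 * (2 ^ h * (qa h (t ω) - qa h (t ω'))) * (W ω).α -
      σ * (W ω').κ)) ((ρ * σ - ρ') * (W ω').κ)
    rw [abs_mul, abs_mul] at g2
    have g3 := mul_le_mul a2 n2 (abs_nonneg _) hK0.le
    have g4 := mul_le_mul g1 (H.k1 ω' hω') (abs_nonneg _) (by positivity)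
    have h1 : K * δ ≤ K ^ 9 * δ := mul_le_mul_of_nonneg_right hK9 hδ
    have h2 : (64 * K ^ 8 * δ + 8 * K ^ 6 * q2 q) * K ≤ 64 * (K ^ 9 * δ) + 8 * (K ^ 9 * q2 (r + j)) := by
      have f1 : K ^ 7 * q2 q ≤ K ^ 9 * q2 (r + j) :=
        mul_le_mul (pow_le_pow_right₀ hK (by norm_num)) hqq hqq0 (by positivity)
      have f2 : (64 * K ^ 8 * δ + 8 * K ^ 6 * q2 q) * K = 64 * (K ^ 9 * δ) + 8 * (K ^ 7 * q2 q) := by ring
      linarith
    linarith

/-! ### light time blocks -/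

section tlev

open Vale.Agent.P127.U.Cell Vale.Agent.P127.U.Nonat Vale.Agent.P127.U.Act Vale.Agent.P106.U.H404

open Classical in
/-- **light time blocks of the levels**, for a near-extremal law; `U a` = letter of the ray side at the level `a` (blocks) -/
theorem time_lev {lam N k β β' ct : ℝ} (h0 : 0 ≤ lam) (h1 : lam ≤ 1) (hk : 0 < k) (hN : 0 ≤ N) (hβ' : 0 ≤ β')
    (hF : FIXA lam N (4 * k) β') (hct : 0 < ct) (hκ : 0 < β' + N - 2 - 4 * k - N * ct) {c : ℝ} (hc : 1 ≤ c) {ε : ℝ}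
    (hε : 0 < ε) :
    ∃ K : ℝ, 0 ≤ K ∧ ∀ (Ω : Type) [Fintype Ω] (υ : Type) (Q : Law Ω) (ry : Ω → Ry) (t : Ω → ℝ) (L h q : ℕ) (W : Ω → Cbx)
      (d : ℝ) (m : ℕ) (U : ℕ → Ω → υ) (gU : ℝ) (n' : ℕ), NEx c lam N k β d Q ry t (fun _ => ()) L h q W → 1 ≤ m →
      m * n' ≤ h → (∀ a ≤ n', Fn Q (fun ω => fl1 (m * a) (t ω)) (fun ω => (ry ω, U a ω))) →
      Stk.hc Q (U 0) ry +
        ∑ a ∈ range n', Stk.hc Q (U (a + 1)) (fun ω => ((ry ω, U a ω), fl1 (m * (a + 1)) (t ω))) ≤ gU →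
      ∑ a ∈ range n', colp Q (fun ω => fl1 (m * a + m) (t ω)) (fun ω => (ry ω, U a ω)) ≤
        eT N k β β' ct d ε K h m n' gU n' := by
  obtain ⟨K, hK0, hK⟩ := H404.actX lam N k β β' ct h0 h1 hk hN hβ' hF hκ.le c hc ε hε
  refine ⟨K, hK0, ?_⟩
  intro Ω _ υ Q ry t L h q W d m U gU n' hX hm1 hn' hUt hprU
  have hlog : 0 < Real.log 2 := Real.log_pos (by norm_num)
  have hm0 : (0 : ℝ) < m := by exact_mod_cast hm1
  have hBd := hK (d * h * Real.log 2) Ω Unit Q ry t (fun _ => ()) L h (0, q) W hX.ok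
    (by have := hX.hL; omega) (fun ω hω => by
      obtain ⟨e1, e2, e3⟩ := hX.lb ω hω
      exact ⟨e1, by rw [e2]; simp, e3⟩) (by
      have := hX.ex
      linarith) m 0 n' (by omega)
  have e1 : d * h * Real.log 2 + (β' - β + ε) * h * Real.log 2 + K * (n' + 1) =
      (β' - β + d + ε) * h * Real.log 2 + K * (n' + 1) := by ring
  rw [e1] at hBd
  have hv : 0 < ct * m * Real.log 2 := by positivity
  set Z₀ : ℕ → Ω → Ry × ℤ × Unit := fun i ω => (ry ω, fl1 (m * i) (t ω), ()) with hZ₀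
  have k0 : ∀ i < n', Fn Q (Z₀ i) (Z₀ (i + 1)) := by
    intro i _ x y _ _ h
    simp only [hZ₀, Prod.mk.injEq] at h ⊢
    exact ⟨h.1, fl1_le (Nat.mul_le_mul_left m (Nat.le_succ i)) h.2.1, trivial⟩
  have k01 : ∀ i ≤ n', Fn Q (Z₀ i) (fun ω => (ry ω, U i ω)) := by
    intro i hi x y hx hy h
    simp only [hZ₀, Prod.mk.injEq]
    exact ⟨congrArg Prod.fst h, hUt i hi x y hx hy h, trivial⟩
  have kX : ∀ i < n', Fn Q (fun ω => fl1 (m * (i + 1)) (t ω)) (Z₀ (i + 1)) := by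
    intro i _ x y _ _ h
    exact (Prod.mk.inj (Prod.mk.inj h).2).1
  have hgU : Stk.hc Q (fun ω => (ry ω, U 0 ω)) (Z₀ 0) + ∑ i ∈ range n',
      Stk.hc Q (fun ω => (ry ω, U (i + 1) ω)) (fun ω => ((ry ω, U i ω), Z₀ (i + 1) ω)) ≤ gU := by
    refine le_trans (add_le_add ?_ (Finset.sum_le_sum fun i _ => ?_)) hprU
    · have g1 : Stk.hc Q (fun ω => (ry ω, U 0 ω)) (Z₀ 0) ≤ Stk.hc Q (U 0) (Z₀ 0) :=
        Stk.hc_mono_left Q fun x y _ _ e => by
          simp only [hZ₀, Prod.mk.injEq] at e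
          exact Prod.ext e.2.1 e.1
      have g2 : Stk.hc Q (U 0) (Z₀ 0) ≤ Stk.hc Q (U 0) ry :=
        Stk.hc_mono_right Q _ fun x y _ _ e => congrArg Prod.fst e
      exact g1.trans g2
    · have g1 : Stk.hc Q (fun ω => (ry ω, U (i + 1) ω)) (fun ω => ((ry ω, U i ω), Z₀ (i + 1) ω)) ≤
          Stk.hc Q (U (i + 1)) (fun ω => ((ry ω, U i ω), Z₀ (i + 1) ω)) :=
        Stk.hc_mono_left Q fun x y _ _ e => by
          simp only [hZ₀, Prod.mk.injEq] at e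
          exact Prod.ext e.2.2.1 e.1
      have g2 : Stk.hc Q (U (i + 1)) (fun ω => ((ry ω, U i ω), Z₀ (i + 1) ω)) ≤
          Stk.hc Q (U (i + 1)) (fun ω => ((ry ω, U i ω), fl1 (m * (i + 1)) (t ω))) :=
        Stk.hc_mono_right Q _ fun x y _ _ e => by
          simp only [hZ₀, Prod.mk.injEq] at e ⊢
          exact ⟨e.1, e.2.2.1⟩
      exact g1.trans g2
  have key := light_abs Q (Z₀ := Z₀) (Z₁ := fun i ω => (ry ω, U i ω)) (X := fun i ω => fl1 (m * (i + 1)) (t ω)) (n := n')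
    k0 k01 kX hgU hv (range n') (Finset.Subset.refl _) Unit (fun _ _ => ())
  have e5 : ∑ i ∈ range n', mi Q (fun ω => fl1 (m * (i + 1)) (t ω)) (fun _ : Ω => ()) (fun ω => (ry ω, U i ω)) = 0 :=
    Finset.sum_eq_zero fun i _ => by
      unfold mi
      rw [sub_eq_zero]
      exact hc_congr Q (fun _ _ _ _ e => (Prod.mk.inj e).1) (fun _ _ _ _ e => (Prod.mk.inj e).1)
        (fun _ _ _ _ e => (Prod.mk.inj e).2) fun _ _ _ _ e => Prod.ext rfl e
  have e6 : ∑ i ∈ range n', colp Q (fun ω => fl1 (m * i + m) (t ω)) (fun ω => (ry ω, U i ω)) ≤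
      ∑ i ∈ range n', colp Q (fun ω => fl1 (m * (i + 1)) (t ω)) (fun ω => ((ry ω, U i ω), ())) := by
    refine Finset.sum_le_sum fun i _ => ?_
    refine Mic.colp_mono_cond Q _ fun x y _ _ e => ?_
    exact (Prod.mk.inj e).1
  have h3 := sum_inac_le Q ry t (fun _ => ()) (a := fun i => m * i) (fun i j hij => Nat.mul_le_mul_left m hij) hm1 0 n'
    (ct * m) (range n') (fun i _ => by ring) (fun i hi => ⟨i, Finset.mem_range.1 hi, by rw [Nat.zero_add]⟩)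
  have e4 : ∑ i ∈ range n', Q.pr (gs Q (fun ω => fl1 (m * (i + 1)) (t ω)) (Z₀ i) (ct * m * Real.log 2)) false =
      ∑ i ∈ range n', inac Q ry t (fun _ => ()) (m * i) (m * i + m) (ct * m) :=
    Finset.sum_congr rfl fun i hi => by rw [H425.inac_eq]; rfl
  have h4 : ∑ j ∈ range n', inac Q ry t (fun _ => ()) (0 + m * j) (0 + m * (j + 1)) (ct * m) ≤
      ((β' - β + d + ε) * h * Real.log 2 + K * (n' + 1)) / ((β' + N - 2 - 4 * k - N * ct) * (m * Real.log 2)) := by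
    rw [le_div_iff₀ (by positivity)]
    linarith
  have e7 : Real.exp (-(ct * m * Real.log 2 / 2)) = (2 : ℝ) ^ (-(ct * (m : ℝ) / 2)) := by
    rw [Real.rpow_def_of_pos (by norm_num : (0 : ℝ) < 2)]
    congr 1
    ring
  rw [e4, e5, mul_zero, add_zero, e7, Finset.card_range] at key
  unfold eT
  linarith

end tlev

/-! ### COMPAT -/

section compat

variable {Z : Type*}

/-- the digits of the rounded time -/
theorem fl1_rdh {s j : ℕ} (h : j ≤ s) (u : ℝ) : fl1 j (rd s u) = fl1 j u := by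
  have key : ∀ x : ℝ, fl1 j x = fl1 s x / ((2 ^ (s - j) : ℕ) : ℤ) := by
    intro x
    unfold fl1
    rw [← Int.floor_div_natCast]
    congr 1
    have e1 : (2 : ℝ) ^ s = 2 ^ j * 2 ^ (s - j) := by rw [← pow_add, Nat.add_sub_cancel' h]
    push_cast
    rw [e1]
    field_simp
  rw [key, key u]
  congr 1
  unfold rd fl1
  rw [mul_div_cancel₀ _ (by positivity : (2 : ℝ) ^ s ≠ 0), Int.floor_intCast]

/-- **the level of COMPAT** : one level `a ∈ I` (in blocks), the same for all letters.  `al a` slope of the line of the ray side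
(to `rI a` digits), `κ` value and `alW` slope of the functional of the end label (field to `r1` digits for equal `Zr a`);
every `g` within `M 2^(m a) 2^-rk` of `al a` agrees with `alW` with probability `≥ 1 - 4 κ₀`; `rk` may be random. -/
theorem compat_pr (Q : Law Ω) {m h r1 : ℕ} (t κ alW : Ω → ℝ) (Zr : ℕ → Ω → Z) (al : ℕ → Ω → ℝ) (rI : ℕ → ℕ) (I : Finset ℕ)
    (hI : I.Nonempty) {N₀ κ₀ M : ℝ} (hκ : 0 < κ₀) (hN : N₀ ≤ I.card) (hM : 0 ≤ M) (hh : ∀ a ∈ I, m * a + m ≤ h)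
    (hsw : ∀ a ∈ I, ∀ ω ω', 0 < Q.w ω → 0 < Q.w ω' → Zr a ω = Zr a ω' →
      |κ ω' - κ ω + alW ω * (rd h (t ω') - rd h (t ω))| ≤ q2 r1)
    (hlin : ∀ a ∈ I, ∀ ω ω', 0 < Q.w ω → 0 < Q.w ω' → Zr a ω = Zr a ω' →
      |κ ω' - κ ω + al a ω * (rd h (t ω') - rd h (t ω))| ≤ 2 * q2 (rI a))
    (hs : ∑ a ∈ I, colp Q (fun ω => fl1 (m * a + m) (t ω)) (Zr a) ≤ κ₀ ^ 2 * N₀) :
    ∃ a ∈ I, ∀ (g : Ω → ℝ) (rk : Ω → ℕ), (∀ ω, 0 < Q.w ω → rk ω ≤ rI a) →
      (∀ ω, 0 < Q.w ω → |g ω - al a ω| * q2 (m * a) ≤ M * q2 (rk ω)) →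
      1 - 4 * κ₀ ≤ prE Q (fun ω => |g ω - alW ω| ≤ (3 + M) * (2 ^ (m * a + m) * q2 (min (rk ω) r1))) := by
  classical
  obtain ⟨a, ha, hcol⟩ := exists_level I (fun a => colp Q (fun ω => fl1 (m * a + m) (t ω)) (Zr a)) hI hN hs
  refine ⟨a, ha, fun g rk hrk hg => ?_⟩
  have hfl : (fun ω => fl1 (m * a + m) (rd h (t ω))) = fun ω => fl1 (m * a + m) (t ω) := by
    funext ω
    exact fl1_rdh (hh a ha) (t ω)
  have h1 := line_own_colp Q (Zr a) (fun ω => rd h (t ω)) κ (al a) alW (p := m * a + m) hκ (hsw a ha) (hlin a ha) (by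
    rw [hfl]
    exact hcol)
  have h2 : 1 - prE Q (fun ω => |g ω - alW ω| ≤ (3 + M) * (2 ^ (m * a + m) * q2 (min (rk ω) r1))) ≤
      Q.ex (fun ω => Law.ind ((q2 r1 + 2 * q2 (rI a)) * 2 ^ (m * a + m) < |al a ω - alW ω|)) := by
    rw [Tra.prE_ex, ← Q.ex_const 1, ← Q.ex_sub]
    refine Q.ex_mono fun ω hω => ?_
    by_cases hE : |g ω - alW ω| ≤ (3 + M) * (2 ^ (m * a + m) * q2 (min (rk ω) r1))
    · rw [Law.ind_of hE, sub_self]
      exact Mic.ind_nonneg _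
    · rw [Law.ind_not hE, sub_zero]
      rw [Law.ind_of]
      have hp : (0 : ℝ) < 2 ^ (m * a + m) := by positivity
      have hpa : (1 : ℝ) ≤ 2 ^ m := one_le_pow₀ (by norm_num)
      have e2 : |g ω - al a ω| ≤ M * (2 ^ (m * a) * q2 (rk ω)) := by
        have h3 := mul_le_mul_of_nonneg_right (hg ω hω) (by positivity : (0 : ℝ) ≤ 2 ^ (m * a))
        have e3 : |g ω - al a ω| * q2 (m * a) * 2 ^ (m * a) = |g ω - al a ω| := by
          rw [mul_assoc, mul_comm (q2 (m * a)), CellD.q2_mul_pow, mul_one]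
        rw [e3] at h3
        linarith
      have q1 : q2 (rk ω) ≤ q2 (min (rk ω) r1) := CellD.q2_le (min_le_left _ _)
      have q3 : q2 r1 ≤ q2 (min (rk ω) r1) := CellD.q2_le (min_le_right _ _)
      have q4 : q2 (rI a) ≤ q2 (min (rk ω) r1) := CellD.q2_le ((min_le_left _ _).trans (hrk ω hω))
      set x := q2 (min (rk ω) r1) with hx
      have hx0 : 0 ≤ x := (CellD.q2_pos _).le
      have e4 : (2 : ℝ) ^ (m * a) * q2 (rk ω) ≤ 2 ^ (m * a + m) * x := by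
        refine mul_le_mul (pow_le_pow_right₀ (by norm_num) (Nat.le_add_right _ _)) q1 (CellD.q2_pos _).le (by positivity)
      have e5 := mul_le_mul_of_nonneg_left e4 hM
      have e6 : (q2 r1 + 2 * q2 (rI a)) * 2 ^ (m * a + m) ≤ 3 * (2 ^ (m * a + m) * x) := by nlinarith
      have e7 : |g ω - alW ω| ≤ |g ω - al a ω| + |al a ω - alW ω| := abs_sub_le _ _ _
      push Not at hE
      linarith
  linarith

/-- **from the event to all lower levels** : the field `gW` of 785's `Hy` (level `A'`), `K' = K + 3 + M` -/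
theorem gW_of {gi gj alW K M : ℝ} {m a A' ri rj r1 : ℕ} (hK : 0 ≤ K) (hM : 0 ≤ M) (hA : m * a + m ≤ A') (hr : ri ≤ rj)
    (hr1 : ri ≤ r1) (h1 : |gj - gi| * q2 (m * a) ≤ K * q2 ri)
    (h2 : |gj - alW| ≤ (3 + M) * (2 ^ (m * a + m) * q2 (min rj r1))) :
    |gi - alW| * q2 A' ≤ (K + (3 + M)) * q2 ri :=
  down (aj := m * a) (e := m) (rj := min rj r1) hK (by linarith) hA (le_min hr hr1) h1 h2

end compat

end Vale.Agent.P106.U.H205
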