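import Vale.Agent.P106.U.H61.NrmDefs
import Vale.Agent.P106.U.H205.TwoCp

/-!
# P106 / U / H205 : COMPAT, own slope of `W` against the slope of the line of the `l`-side (helper205; note 18905)

* `nex_win` : the window `[a, h]` of a near-extremal system is a near-extremal system (letter `C` and the cell of level `a`).
* `PWev`, `pWev` : on an event of probability `≥ p0` the functional of `W` on the block of level `a` is a function of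
  `(l, t_a, C, G)`, `G` with `M` values, to `ρ ≤ q - K1 (h - a)` digits (from `PEv` of helper457 on the window).
* `PCmpt`, `pCmpt` : the slope `A` of a line of the `l`-side of level `a` agrees with the own slope `2 2^h σ W.α` of `W` up to
  `(10 2^-ρ + ρ₂) 2^(a+m)` with probability `≥ p0 / 2`, if the time block `[a, a + m]` is nonatomic given the letter of level `a`.
* `PCmptW`, `pCmptW` : the same for a value `g` of the slope which is a function of another variable (the window of `W`).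
-/

set_option autoImplicit false

namespace Vale.Agent.P106.U.H205

open Vale.Agent.P127 Vale.Agent.P127.Stk Vale.Agent.P127.U Vale.Agent.P106.W Vale.Agent.P106.K
open Vale.Agent.P106.U Vale.Agent.P106.U.H416 Vale.Agent.P106.U.H428 Vale.Agent.P106.U.H61
open Vale.Agent.P106.U.H513 (dnB tau)
open Vale.Agent.P127.U.Mic (cq)

/-! ### the functional in the window -/

theorem Fa_win_κ (a w : ℕ) (W : Cbx) (o : Fin 2 → ℝ) (o0 : ℝ) (t : ℝ) :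
    (Fa w (trB o o0 W) (wt a t)).κ = W.κ - 2 * (2 ^ (a + w) * W.α) * (qa (a + w) t - qa a t) := by
  have h1 : tau 0 w (wt a t) = 2 ^ a * (qa (a + w) t - qa a t) := by
    unfold tau
    rw [Nat.zero_add, qa_wt, qa_wt_zero]
    ring
  simp only [Fa, dnB, trB]
  rw [h1, pow_add]
  ring

theorem Fa_win_α (a w : ℕ) (W : Cbx) (o : Fin 2 → ℝ) (o0 : ℝ) (t : ℝ) :
    (Fa w (trB o o0 W) (wt a t)).α = 2 ^ w * W.α := by
  simp only [Fa, dnB, trB]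

/-- two labels with the same rounded functional in the window -/
theorem gk_two {a w ρ : ℕ} {W W' : Cbx} {o o' : Fin 2 → ℝ} {o0 o0' : ℝ} {t t' : ℝ} (ht : fl1 a t = fl1 a t')
    (h : gk w ρ (trB o o0 W) (wt a t) = gk w ρ (trB o' o0' W') (wt a t')) :
    |W.κ - W'.κ - 2 * (2 ^ (a + w) * W.α) * (qa (a + w) t - qa (a + w) t')| ≤ 3 * (1 / 2 : ℝ) ^ ρ ∧
      |2 ^ (a + w) * W.α - 2 ^ (a + w) * W'.α| ≤ 2 ^ a * (1 / 2 : ℝ) ^ ρ := by
  have h2a : (0 : ℝ) < 2 ^ a := by positivity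
  have hcl := cf_eq (Nat.zero_le _) h
  have k1 := hcl.κ
  have k2 := hcl.α
  rw [Nat.mul_zero, pow_zero, one_mul, one_mul, one_mul, Fa_win_κ, Fa_win_κ] at k1
  rw [Nat.mul_zero, pow_zero, one_mul, one_mul, one_mul, Fa_win_α, Fa_win_α] at k2
  have eq : qa a t = qa a t' := by unfold qa; rw [ht]
  have hτ0 : 0 ≤ 2 ^ a * (qa (a + w) t' - qa a t') := by
    have := H513.tau_nonneg a w t'
    exact this
  have hτ1 : 2 ^ a * (qa (a + w) t' - qa a t') ≤ 1 := by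
    have := H513.tau_le a w t'
    exact this
  constructor
  · have e : W.κ - W'.κ - 2 * (2 ^ (a + w) * W.α) * (qa (a + w) t - qa (a + w) t') =
        ((W.κ - 2 * (2 ^ (a + w) * W.α) * (qa (a + w) t - qa a t)) -
          (W'.κ - 2 * (2 ^ (a + w) * W'.α) * (qa (a + w) t' - qa a t'))) +
        2 * ((2 ^ a * (qa (a + w) t' - qa a t')) * (2 ^ w * W.α - 2 ^ w * W'.α)) := by
      rw [eq, pow_add]
      ring
    rw [e]
    refine (abs_add_le _ _).trans ?_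
    have h3 : |2 * ((2 ^ a * (qa (a + w) t' - qa a t')) * (2 ^ w * W.α - 2 ^ w * W'.α))| ≤ 2 * (1 / 2 : ℝ) ^ ρ := by
      rw [abs_mul, abs_two, abs_mul, abs_of_nonneg hτ0]
      have := mul_le_mul hτ1 k2 (abs_nonneg _) zero_le_one
      linarith
    linarith
  · have e : 2 ^ (a + w) * W.α - 2 ^ (a + w) * W'.α = 2 ^ a * (2 ^ w * W.α - 2 ^ w * W'.α) := by
      rw [pow_add]
      ring
    rw [e, abs_mul, abs_of_pos h2a]
    exact mul_le_mul_of_nonneg_left k2 h2a.le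

/-! ### windows of near-extremal systems -/

/-- **the window of a near-extremal system** -/
theorem nex_win (lam N k β' : ℝ) (h0 : 0 ≤ lam) (h1 : lam ≤ 1) (hk : 0 < k) (hN : 0 ≤ N) (hβ' : 0 ≤ β')
    (hF : FIXA lam N (4 * k) β') (c : ℝ) (hc : 1 ≤ c) (ε : ℝ) (hε : 0 < ε) : ∃ K : ℝ, 0 ≤ K ∧
    ∀ (β d d' : ℝ) (Ω : Type) [Fintype Ω] (γ : Type) (P : Law Ω) (l : Ω → Ry) (t : Ω → ℝ) (C : Ω → γ)
      (L h q : ℕ) (W : Ω → Cbx), NEx c lam N k β d P l t C L h q W → ∀ a w : ℕ, a + w = h →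
      (d * h + (β' + ε - β) * a) * Real.log 2 + K ≤ d' * w * Real.log 2 →
      NEx c lam N (2 * k) β d' P (fun ω => wR a (l ω) (t ω)) (fun ω => wt a (t ω))
        (fun ω => ((), (wC a l t C ω, ()))) (L - a) w q (wB a w l t W) := by
  obtain ⟨K1, hK10, hK1⟩ := wsel lam N k β' h0 h1 hk hN hβ' hF c hc ε hε
  refine ⟨K1, hK10, ?_⟩
  intro β d d' Ω _ γ P l t C L h q W hE a w haw hD
  have x1 := hK1 β d Ω γ Unit P l t C (fun _ => ()) L h q W hE a w haw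
  have e1 : ∀ {δ : Type} (Y : Ω → δ), Stk.hc P (fun _ : Ω => ()) Y = 0 := fun Y =>
    le_antisymm (by
      have := Stk.hc_le_log P (fun _ : Ω => ()) Y 1 fun ω _ => ⟨{()}, by simp, fun ω' _ _ => by simp⟩
      simpa using this) (Stk.hc_nonneg P _ _)
  rw [e1, e1, mul_zero, add_zero, add_zero] at x1
  have hhL := hE.hL
  refine ⟨syOk_win hE.ok, by omega, fun ω hω => ?_, ?_⟩
  · obtain ⟨g1, g2, g3⟩ := hE.lb ω hω
    rw [← haw] at g1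
    exact ⟨lb_win g1, g2, g3⟩
  · unfold Df at x1
    linarith

/-- **event of the window** -/
def PWev : Prop :=
  ∀ lam N β₀ : ℝ, 0 < lam → lam < 1 → lam < β₀ → 2 ≤ N → ∃ K1 p0 : ℝ, 0 < K1 ∧ 0 < p0 ∧ ∀ η' : ℝ, 0 < η' →
    ∃ η : ℝ, 0 < η ∧ ∀ k β β' : ℝ, 0 < k → k ≤ η → β₀ ≤ β → β ≤ β' → β' ≤ β + η → β' ≤ 3 → FIXA lam N (8 * k) β' →
      ∀ c : ℝ, 1 ≤ c → ∃ M h0 : ℕ, ∀ (Ω : Type) [Fintype Ω] (γ : Type) (P : Law Ω) (l : Ω → Ry) (t : Ω → ℝ)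
        (C : Ω → γ) (L h q : ℕ) (W : Ω → Cbx), h0 ≤ h → NEx c lam N k β η P l t C L h q W →
        ∀ a w ρ : ℕ, a + w = h → η' * h ≤ (w : ℝ) → (ρ : ℝ) + K1 * w ≤ q →
        ∃ (E : Ω → Prop) (G : Ω → Fin M), p0 ≤ prE P E ∧
          ∀ ω ω', 0 < P.w ω → 0 < P.w ω' → E ω → E ω' → l ω = l ω' → fl1 a (t ω) = fl1 a (t ω') → C ω = C ω' →
            G ω = G ω' →
            |(W ω).κ - (W ω').κ - 2 * (2 ^ h * (W ω).α) * (qa h (t ω) - qa h (t ω'))| ≤ 3 * (1 / 2 : ℝ) ^ ρ ∧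
            |2 ^ h * (W ω).α - 2 ^ h * (W ω').α| ≤ 2 ^ a * (1 / 2 : ℝ) ^ ρ

theorem pWev (hev : PEv) : PWev := by
  intro lam N β₀ hl0 hl1 hβ₀ hN
  obtain ⟨K1, p0, hK1, hp0, H⟩ := hev lam N β₀ hl0 hl1 hβ₀ hN
  refine ⟨K1, p0, hK1, hp0, ?_⟩
  intro η' hη'
  obtain ⟨η, hη, H1⟩ := H (1 / 2) (by norm_num)
  set η2 : ℝ := min (η / 2) (η' * η / 8) with hη2
  have hη20 : 0 < η2 := lt_min (by positivity) (by positivity)
  have hη2a : η2 ≤ η / 2 := min_le_left _ _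
  have hη2b : η2 ≤ η' * η / 8 := min_le_right _ _
  refine ⟨η2, hη20, ?_⟩
  intro k β β' hk hkη hβ hββ' hβ'η hβ'3 hF c hc
  have hF' : FIXA lam N (4 * (2 * k)) β' := by
    rw [show 4 * (2 * k) = 8 * k by ring]
    exact hF
  obtain ⟨M, h0, H2⟩ := H1 (2 * k) β β' (by positivity) (by linarith) hβ hββ' (by linarith) hβ'3 hF' c hc
  have hF4 : FIXA lam N (4 * k) β' := by
    intro c1 hc1 ε hε
    obtain ⟨K, hK⟩ := hF c1 hc1 ε hε
    refine ⟨K, fun Ω _ γ P l t C L s e0 W g1 g2 g3 => (hK Ω γ P l t C L s e0 W g1 g2 g3).trans ?_⟩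
    have hXX : XX c1 lam (8 * k) 0 P l t C (fun _ => e0) L 0 ≤ XX c1 lam (4 * k) 0 P l t C (fun _ => e0) L 0 :=
      H875.XX_mono_k (by linarith) (Nat.zero_le _) hl0.le hl1.le (by positivity) le_rfl (by linarith) le_rfl
    linarith
  obtain ⟨K, hK0, hK⟩ := nex_win lam N k β' hl0.le hl1.le hk (by linarith) (by linarith) hF4 c hc η2 hη20
  have hl2 : 0 < Real.log 2 := Real.log_pos (by norm_num)
  -- the size of the window
  obtain ⟨h1, hh1⟩ := exists_nat_ge (max ((h0 : ℝ) / η') (8 * K / (η * Real.log 2 * η')))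
  refine ⟨M, h1, ?_⟩
  intro Ω _ γ P l t C L h q W hh hE a w ρ haw hw hρ
  have hhR : (h1 : ℝ) ≤ h := by exact_mod_cast hh
  have g1 : (h0 : ℝ) ≤ w := by
    have : (h0 : ℝ) / η' ≤ h := (le_max_left _ _).trans (hh1.trans hhR)
    rw [div_le_iff₀ hη'] at this
    linarith
  have g2 : 8 * K ≤ η * Real.log 2 * w := by
    have : 8 * K / (η * Real.log 2 * η') ≤ h := (le_max_right _ _).trans (hh1.trans hhR)
    rw [div_le_iff₀ (by positivity)] at this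
    have h3 : η * Real.log 2 * (η' * h) ≤ η * Real.log 2 * w := mul_le_mul_of_nonneg_left hw (by positivity)
    nlinarith
  have haw' : (a : ℝ) ≤ h := by
    rw [← haw]
    push_cast
    linarith [(Nat.cast_nonneg w : (0 : ℝ) ≤ w)]
  have ha0 : (0 : ℝ) ≤ a := Nat.cast_nonneg a
  have hh0 : (0 : ℝ) ≤ h := Nat.cast_nonneg h
  have g3 : (η2 * h + (β' + η2 - β) * a) * Real.log 2 + K ≤ η * w * Real.log 2 := by
    have k1 : (β' + η2 - β) * a ≤ 2 * η2 * h := by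
      have k2 : β' + η2 - β ≤ 2 * η2 := by linarith
      have k3 : 0 ≤ β' + η2 - β := by linarith
      exact mul_le_mul k2 haw' ha0 (by positivity)
    have k4 : 3 * η2 * h ≤ 3 / 8 * (η * w) := by
      have k5 : η2 * h ≤ η' * η / 8 * h := mul_le_mul_of_nonneg_right hη2b hh0
      have k6 : η * (η' * h) ≤ η * w := mul_le_mul_of_nonneg_left hw hη.le
      nlinarith
    have k7 : (η2 * h + (β' + η2 - β) * a) * Real.log 2 ≤ 3 / 8 * (η * w) * Real.log 2 :=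
      mul_le_mul_of_nonneg_right (by linarith) hl2.le
    have k8 : 0 ≤ η * w * Real.log 2 := by positivity
    linarith
  have hE' := hK β η2 η Ω γ P l t C L h q W hE a w haw g3
  obtain ⟨E, G, hE1, -, hE2⟩ := H2 Ω _ P _ _ _ (L - a) w q _ (by exact_mod_cast g1) hE' w ρ (by
    have : (0 : ℝ) ≤ w := Nat.cast_nonneg w
    linarith) hρ
  refine ⟨E, G, hE1, ?_⟩
  intro ω ω' hω hω' e1 e2 el et eC eG
  have ebl : bl a (l ω) (t ω) = bl a (l ω') (t ω') := by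
    have : qa a (t ω) = qa a (t ω') := by unfold qa; rw [et]
    unfold bl
    rw [el, this]
  have ewo : wo a (l ω) (t ω) = wo a (l ω') (t ω') := by unfold wo; rw [ebl]
  have ewh : wh a (l ω) (t ω) = wh a (l ω') (t ω') := by unfold wh; rw [ebl]
  have h3 := hE2 ω ω' hω hω' e1 e2 (by unfold wR; rw [ewo, ewh, ebl]) (by
      have z : ∀ x : ℝ, fl1 0 (wt a x) = 0 := fun x => by
        unfold fl1
        rw [pow_zero, one_mul, Int.floor_eq_iff]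
        push_cast
        exact ⟨wt_nonneg a x, by linarith [wt_lt a x]⟩
      rw [z, z]) (by
      simp only [wC, Prod.mk.injEq, true_and, and_true]
      exact ⟨eC, et, ewo, ewh⟩) eG
  have h4 := gk_two et h3
  rw [haw] at h4
  exact h4

/-! ### the slope of the line -/

/-- **COMPAT** -/
def PCmpt : Prop :=
  ∀ lam N β₀ : ℝ, 0 < lam → lam < 1 → lam < β₀ → 2 ≤ N → ∃ K1 p0 : ℝ, 0 < K1 ∧ 0 < p0 ∧ ∀ η' : ℝ, 0 < η' →
    ∃ η : ℝ, 0 < η ∧ ∀ k β β' : ℝ, 0 < k → k ≤ η → β₀ ≤ β → β ≤ β' → β' ≤ β + η → β' ≤ 3 → FIXA lam N (8 * k) β' →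
      ∀ c : ℝ, 1 ≤ c → ∃ κ : ℝ, 0 < κ ∧ ∃ h0 : ℕ, ∀ (Ω : Type) [Fintype Ω] (γ : Type) (P : Law Ω) (l : Ω → Ry)
        (t : Ω → ℝ) (C : Ω → γ) (L h q : ℕ) (W : Ω → Cbx), h0 ≤ h → NEx c lam N k β η P l t C L h q W →
        ∀ a w ρ m : ℕ, a + w = h → η' * h ≤ (w : ℝ) → (ρ : ℝ) + K1 * w ≤ q →
        ∀ (υ : Type) (U : Ω → υ) (σ T A : Ω → ℝ) (ρ₂ : ℝ),
          (∀ ω, 0 < P.w ω → σ ω = 1 ∨ σ ω = -1) → (∀ ω, 0 < P.w ω → |T ω - qa h (t ω)| ≤ (1 / 2 : ℝ) ^ h) →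
          (∀ ω ω', 0 < P.w ω → 0 < P.w ω' → U ω = U ω' → l ω = l ω' ∧ fl1 a (t ω) = fl1 a (t ω') ∧ C ω = C ω' ∧
            |σ ω * ((W ω).κ + 2 * (2 ^ h * (W ω).α) * (T ω - qa h (t ω))) -
              σ ω' * ((W ω').κ + 2 * (2 ^ h * (W ω').α) * (T ω' - qa h (t ω'))) - A ω * (T ω - T ω')| ≤ ρ₂) →
          P.ex (fun ω => Law.ind (κ ≤ cq P (fun ω => fl1 (a + m) (T ω)) U (fl1 (a + m) (T ω)) (U ω))) ≤ κ →
          ∃ E : Ω → Prop, p0 ≤ prE P E ∧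
            P.ex (fun ω => Law.ind (E ω ∧ (5 * (1 / 2 : ℝ) ^ ρ + ρ₂) * 2 ^ (a + m) <
              |A ω - 2 * (2 ^ h * (σ ω * (W ω).α))|)) ≤ p0 / 4

theorem pCmpt (hev : PEv) : PCmpt := by
  intro lam N β₀ hl0 hl1 hβ₀ hN
  obtain ⟨K1, p0, hK1, hp0, H⟩ := pWev hev lam N β₀ hl0 hl1 hβ₀ hN
  refine ⟨K1, p0, hK1, hp0, ?_⟩
  intro η' hη'
  obtain ⟨η, hη, H1⟩ := H η' hη'
  refine ⟨η, hη, ?_⟩
  intro k β β' hk hkη hβ hββ' hβ'η hβ'3 hF c hc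
  obtain ⟨M, h0, H2⟩ := H1 k β β' hk hkη hβ hββ' hβ'η hβ'3 hF c hc
  set κ : ℝ := p0 / (4 * (1 + 6 * M)) with hκ
  have hM0 : (0 : ℝ) ≤ M := Nat.cast_nonneg M
  have hκ0 : 0 < κ := by positivity
  refine ⟨κ, hκ0, h0, ?_⟩
  intro Ω _ γ P l t C L h q W hh hE a w ρ m haw hw hρ υ U σ T A ρ₂ hσ hT hU hat
  obtain ⟨E, G, hE1, hE2⟩ := H2 Ω γ P l t C L h q W hh hE a w ρ haw hw hρ
  classical
  refine ⟨E, hE1, ?_⟩
  have hah : a ≤ h := by omega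
  set G' : Ω → Fin M × Bool := fun ω => (G ω, decide (σ ω = 1)) with hG'
  set ka : Ω → ℝ := fun ω => σ ω * ((W ω).κ + 2 * (2 ^ h * (W ω).α) * (T ω - qa h (t ω))) with hka
  set al : Ω → ℝ := fun ω => 2 * (2 ^ h * (σ ω * (W ω).α)) with hal
  have h2am : (0 : ℝ) < 2 ^ (a + m) := by positivity
  have key := slope P U (fun ω => fl1 (a + m) (T ω)) G' E T ka al A (δ := (1 / 2 : ℝ) ^ (a + m))
    (ρ₁ := 5 * (1 / 2 : ℝ) ^ ρ) (ρ₂ := ρ₂) (κ := κ) (by positivity) hκ0.le ?_ ?_ (fun ω ω' hω hω' e => (hU ω ω' hω hω' e).2.2.2)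
  · have e1 : (5 * (1 / 2 : ℝ) ^ ρ + ρ₂) / (1 / 2 : ℝ) ^ (a + m) = (5 * (1 / 2 : ℝ) ^ ρ + ρ₂) * 2 ^ (a + m) := by
      rw [div_eq_iff (by positivity), mul_assoc, pw_b, mul_one]
    rw [e1] at key
    refine key.trans ?_
    have e2 : (Fintype.card (Fin M × Bool) : ℝ) = 2 * M := by
      rw [Fintype.card_prod, Fintype.card_fin, Fintype.card_bool]
      push_cast
      ring
    rw [e2]
    have e3 : κ + 3 * (2 * M) * κ = p0 / 4 := by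
      rw [hκ]
      field_simp
      ring
    linarith
  · -- separation of the times
    intro ω ω' _ _ _ h2
    have h3 : (2 : ℝ) ≤ |((fl1 (a + m) (T ω) : ℤ) : ℝ) - ((fl1 (a + m) (T ω') : ℤ) : ℝ)| := by
      exact_mod_cast h2
    have f1 := Int.floor_le ((2 : ℝ) ^ (a + m) * T ω)
    have f2 := Int.lt_floor_add_one ((2 : ℝ) ^ (a + m) * T ω)
    have f3 := Int.floor_le ((2 : ℝ) ^ (a + m) * T ω')
    have f4 := Int.lt_floor_add_one ((2 : ℝ) ^ (a + m) * T ω')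
    unfold fl1 at h3
    have h4 : 1 ≤ |(2 : ℝ) ^ (a + m) * (T ω - T ω')| := by
      rw [mul_sub, le_abs]
      rcases le_abs.1 h3 with h5 | h5
      · left; linarith
      · right; linarith
    rw [abs_mul, abs_of_pos h2am] at h4
    have h5 : (1 / 2 : ℝ) ^ (a + m) * (2 ^ (a + m) * |T ω - T ω'|) = |T ω - T ω'| := by
      rw [← mul_assoc, mul_comm ((1 / 2 : ℝ) ^ (a + m)), pw_b, one_mul]
    rw [← h5]
    have h6 : (0 : ℝ) < (1 / 2 : ℝ) ^ (a + m) := by positivity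
    nlinarith
  · -- the own slope
    intro ω ω' hω hω' e1 e2 eU eG
    obtain ⟨u1, u2, u3, -⟩ := hU ω ω' hω hω' eU
    simp only [hG', Prod.mk.injEq, decide_eq_decide] at eG
    obtain ⟨eG1, eG2⟩ := eG
    obtain ⟨b1, b2⟩ := hE2 ω ω' hω hω' e1 e2 u1 u2 u3 eG1
    have eσ : σ ω' = σ ω := by
      rcases hσ ω hω with s1 | s1 <;> rcases hσ ω' hω' with s2 | s2
      · rw [s1, s2]
      · exact absurd (s2.symm.trans (eG2.1 s1)) (by norm_num)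
      · exact absurd (s1.symm.trans (eG2.2 s2)) (by norm_num)
      · rw [s1, s2]
    have s0 : ∀ x : ℝ, |σ ω * x| = |x| := fun x => by
      rcases hσ ω hω with s1 | s1
      · rw [s1, one_mul]
      · rw [s1, neg_one_mul, abs_neg]
    have e : ka ω - ka ω' - al ω * (T ω - T ω') = σ ω * (((W ω).κ - (W ω').κ -
        2 * (2 ^ h * (W ω).α) * (qa h (t ω) - qa h (t ω'))) -
        2 * ((2 ^ h * (W ω').α - 2 ^ h * (W ω).α) * (T ω' - qa h (t ω')))) := by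
      rw [hka, hal]
      simp only
      rw [eσ]
      ring
    rw [e, s0]
    refine (abs_sub _ _).trans ?_
    have b3 : |2 * ((2 ^ h * (W ω').α - 2 ^ h * (W ω).α) * (T ω' - qa h (t ω')))| ≤ 2 * (1 / 2 : ℝ) ^ ρ := by
      rw [abs_mul, abs_two, abs_mul, abs_sub_comm]
      have b4 : |2 ^ h * (W ω).α - 2 ^ h * (W ω').α| * |T ω' - qa h (t ω')| ≤
          2 ^ a * (1 / 2 : ℝ) ^ ρ * (1 / 2 : ℝ) ^ h :=
        mul_le_mul b2 (hT ω' hω') (abs_nonneg _) (by positivity)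
      have b5 : (2 : ℝ) ^ a * (1 / 2 : ℝ) ^ ρ * (1 / 2 : ℝ) ^ h ≤ (1 / 2 : ℝ) ^ ρ := by
        have b6 : (1 / 2 : ℝ) ^ h ≤ (1 / 2 : ℝ) ^ a := pow_le_pow_of_le_one (by norm_num) (by norm_num) hah
        calc (2 : ℝ) ^ a * (1 / 2 : ℝ) ^ ρ * (1 / 2 : ℝ) ^ h ≤ (2 : ℝ) ^ a * (1 / 2 : ℝ) ^ ρ * (1 / 2 : ℝ) ^ a :=
              mul_le_mul_of_nonneg_left b6 (by positivity)
          _ = (2 ^ a * (1 / 2 : ℝ) ^ a) * (1 / 2 : ℝ) ^ ρ := by ring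
          _ = (1 / 2 : ℝ) ^ ρ := by rw [pw_b, one_mul]
      linarith
    linarith

/-- **COMPAT**, value of the slope given another variable -/
def PCmptW : Prop :=
  ∀ lam N β₀ : ℝ, 0 < lam → lam < 1 → lam < β₀ → 2 ≤ N → ∃ K1 p0 : ℝ, 0 < K1 ∧ 0 < p0 ∧ ∀ η' : ℝ, 0 < η' →
    ∃ η : ℝ, 0 < η ∧ ∀ k β β' : ℝ, 0 < k → k ≤ η → β₀ ≤ β → β ≤ β' → β' ≤ β + η → β' ≤ 3 → FIXA lam N (8 * k) β' →
      ∀ c : ℝ, 1 ≤ c → ∃ κ : ℝ, 0 < κ ∧ ∃ h0 : ℕ, ∀ (Ω : Type) [Fintype Ω] (γ : Type) (P : Law Ω) (l : Ω → Ry)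
        (t : Ω → ℝ) (C : Ω → γ) (L h q : ℕ) (W : Ω → Cbx), h0 ≤ h → NEx c lam N k β η P l t C L h q W →
        ∀ a w ρ m : ℕ, a + w = h → η' * h ≤ (w : ℝ) → (ρ : ℝ) + K1 * w ≤ q →
        ∀ (υ : Type) (U : Ω → υ) (σ T A : Ω → ℝ) (ρ₂ : ℝ),
          (∀ ω, 0 < P.w ω → σ ω = 1 ∨ σ ω = -1) → (∀ ω, 0 < P.w ω → |T ω - qa h (t ω)| ≤ (1 / 2 : ℝ) ^ h) →
          (∀ ω ω', 0 < P.w ω → 0 < P.w ω' → U ω = U ω' → l ω = l ω' ∧ fl1 a (t ω) = fl1 a (t ω') ∧ C ω = C ω' ∧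
            |σ ω * ((W ω).κ + 2 * (2 ^ h * (W ω).α) * (T ω - qa h (t ω))) -
              σ ω' * ((W ω').κ + 2 * (2 ^ h * (W ω').α) * (T ω' - qa h (t ω'))) - A ω * (T ω - T ω')| ≤ ρ₂) →
          Mic.colp P (fun ω => fl1 (a + m) (T ω)) U ≤ κ ^ 2 →
          ∀ g y : Ω → ℝ, P.ex (fun ω => Law.ind (y ω < |A ω - g ω|)) ≤ p0 / 4 →
            p0 / 2 ≤ P.ex (fun ω => Law.ind (|g ω - 2 * (2 ^ h * (σ ω * (W ω).α))| ≤
              (5 * (1 / 2 : ℝ) ^ ρ + ρ₂) * 2 ^ (a + m) + y ω))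

theorem pCmptW (hev : PEv) : PCmptW := by
  intro lam N β₀ hl0 hl1 hβ₀ hN
  obtain ⟨K1, p0, hK1, hp0, H⟩ := pCmpt hev lam N β₀ hl0 hl1 hβ₀ hN
  refine ⟨K1, p0, hK1, hp0, ?_⟩
  intro η' hη'
  obtain ⟨η, hη, H1⟩ := H η' hη'
  refine ⟨η, hη, ?_⟩
  intro k β β' hk hkη hβ hββ' hβ'η hβ'3 hF c hc
  obtain ⟨κ, hκ, h0, H2⟩ := H1 k β β' hk hkη hβ hββ' hβ'η hβ'3 hF c hc
  refine ⟨κ, hκ, h0, ?_⟩
  intro Ω _ γ P l t C L h q W hh hE a w ρ m haw hw hρ υ U σ T A ρ₂ hσ hT hU hcol g y hg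
  obtain ⟨E, e1, e2⟩ := H2 Ω γ P l t C L h q W hh hE a w ρ m haw hw hρ υ U σ T A ρ₂ hσ hT hU
    (atom_of_colp P _ U hκ hcol)
  rw [Lam.prE_eq_ex] at e1
  have := event_le P E (fun ω => 2 * (2 ^ h * (σ ω * (W ω).α))) A g y e1 e2 hg
  linarith

end Vale.Agent.P106.U.H205
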