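import Vale.Agent.P106.U.H425.QS
import Vale.Agent.P106.U.H812.RecS
import Vale.Agent.P106.U.MIC.Stage

/-!
# P106 / U / H205 : the row `RowQ` (prices) of `PScale` (helper205)

* `xoR_mono` : monotonicity of the price of the overhang.
* **`rowQ`** : `MIC.RowQ`.
* **`xo_row`** : the price of the overhang (part of `RowH`), `xoS s = xoR (m log 2) ((θ + δ1 + 4 ε) h) (nuE √θ h m)`, sum
  `≤ η / 200 * h`.
* `core` : helper425's sum `∑ (qc + xo)` in the order of the constants of `PScale`, any accuracy `κ`, with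
  `L0 = (θ + δ1 + 4 ε) h` (helper543) or `L0 = 2 θ h`.
-/

set_option autoImplicit false

namespace Vale.Agent.P106.U.H205.RowQ

open Finset Vale.Agent.P127 Vale.Agent.P127.Stk Vale.Agent.P127.U Vale.Agent.P106.W Vale.Agent.P106.K Vale.Agent.P106.U
open Vale.Agent.P106.U.S3 (Run)
open Vale.Agent.P106.U.S5
open Vale.Agent.P106.U.MIC (ix nz az rz bc)
open Vale.Agent.P106.U.H425 (QCst QNum nuE)
open Vale.Agent.P106.U.H823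
open Vale.Agent.P106.U.Top543 (xoR)

theorem xoR_mono {M M' L0 L0' : ℝ} (hM : M ≤ M') (hL : L0 ≤ L0') (ν : ℕ) (a r : ℕ → ℕ) (N j : ℕ) :
    xoR M L0 ν a r N j ≤ xoR M' L0' ν a r N j := by
  unfold xoR
  have h1 : L0 / (ν : ℝ) ≤ L0' / ν := div_le_div_of_nonneg_right hL (Nat.cast_nonneg _)
  refine mul_le_mul_of_nonneg_left (add_le_add h1 ?_) (Nat.cast_nonneg _)
  split_ifs
  · exact hM
  · exact le_rfl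

/-- **the prices** in the order of the constants of `PScale` -/
theorem core {b : Bs} (hb : b.Ok) {κ : ℝ} (hκ : 0 < κ) :
    ∃ θ0 : ℝ, 0 < θ0 ∧ ∀ θ : ℝ, 0 < θ → θ ≤ θ0 → ∃ δ0 : ℝ, 0 < δ0 ∧ ∀ δ1 : ℝ, 0 < δ1 → δ1 ≤ δ0 →
    ∀ σ : Cst, σ = ⟨b, θ, δ1⟩ → σ.Ok → ∃ ε0 : ℝ, 0 < ε0 ∧ ∀ ε : ℝ, 0 < ε → ε ≤ ε0 → ∀ ρ : Thr, ρ.Ok →
    ∃ m0 : ℕ, ∀ m : ℕ, m0 ≤ m → ∃ B0 : ℕ, ∀ B : ℕ, B0 ≤ B → ∃ h0 : ℕ, ∀ h : ℕ, h0 ≤ h →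
      ∀ (Ω : Type) [Fintype Ω] (Q : Law Ω) (l : Ω → Ry) (t : Ω → ℝ) (L q r0 Rn : ℕ) (W : Ω → Cbx)
        (τ υ : Type) (R : Run Ω τ υ) (pn : Run.Num) (g' gU e κ₀ : ℝ) (a1 r1 : ℕ),
        RunOk σ ε ρ m B Q l t L h q r0 Rn W R pn g' gU e κ₀ a1 r1 → ∀ i0 : ℕ, i0 ≤ Cmp.Nc R R.b1 →
        0 < nuE (Real.sqrt σ.θ) h m ∧ σ.δ1 + 4 * ε ≤ σ.θ ∧
        ∀ L0 : ℝ, L0 ≤ 2 * σ.θ * h → ∑ j ∈ range (nz R i0), (H812.qc0 R i0 j +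
          xoR (m * Real.log 2) L0 (nuE (Real.sqrt σ.θ) h m) (az R i0) (rz R i0) (nz R i0) j) ≤ κ * h := by
  obtain ⟨θ0, hθ0, H⟩ := H425.qcst_ex hb (half_pos hκ)
  refine ⟨θ0, hθ0, fun θ hθ hθ1 => ?_⟩
  obtain ⟨δ0, hδ0, H⟩ := H θ hθ hθ1
  refine ⟨δ0, hδ0, fun δ1 hδ hδ1 σ hσ hσo => ?_⟩
  subst hσ
  obtain ⟨ε0, hε0, H⟩ := H δ1 hδ hδ1
  refine ⟨ε0, hε0, fun ε hε hε1 ρ hρ => ?_⟩
  have hC := H ε hε hε1
  obtain ⟨m0, N⟩ := (H425.ev_QNum (σ := ⟨b, θ, δ1⟩) hθ (half_pos hκ) ρ).out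
  refine ⟨m0, fun m hm => ?_⟩
  obtain ⟨B0, N⟩ := N m hm
  refine ⟨B0, fun B hB => ?_⟩
  obtain ⟨h0, N⟩ := N B hB
  refine ⟨h0, fun h hh => ?_⟩
  intro Ω _ Q l t L q r0 Rn W τ υ R pn g' gU e κ₀ a1 r1 hR i0 hi0
  have hN := N h hh
  refine ⟨(H425.xo_rec hσo hρ hR hε.le hC hN hi0).1, hC.L0, fun L0 hL0 => ?_⟩
  have h1 := H425.qs_rec0 hσo hρ hR hε.le hC hN hi0
  have e1 : 2 * (κ / 2) * (h : ℝ) = κ * h := by ring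
  rw [e1] at h1
  refine le_trans (Finset.sum_le_sum fun j _ => ?_) h1
  refine add_le_add (le_of_eq rfl) ?_
  rw [hR.hm]
  exact xoR_mono le_rfl hL0 _ _ _ _ _

/-! ### the rows -/

open Vale.Agent.P106.U.MIC (St Pre Suf)

/-- the price of the frame is the price of the record -/
theorem qc_eq {η : ℝ} {x : ℕ} {σ : Cst} {ε : ℝ} {ρ : Thr} {g : Gv} {m B h : ℕ} (s : St η x σ ε ρ g m B h) (j : ℕ) :
    s.qc j = H812.qc0 s.R s.i0 j := rfl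

/-- **[Q]** -/
theorem rowQ : MIC.RowQ := by
  intro b hb η hη x δh e3 _ _ _
  refine ⟨1, one_pos, fun θ _ _ => ⟨1, one_pos, fun δ1 _ _ σ _ _ => ⟨η / 400, by positivity, fun ε _ hε1 ρ _ => ?_⟩⟩⟩
  refine fun g _ => ⟨0, fun m _ => ⟨0, fun B _ => ⟨0, fun h _ s => ?_⟩⟩⟩
  have h1 : ∑ j ∈ range s.N, s.qc j ≤ 2 * ε * h := H425.qc_sum s.run s.i0 s.N
  have h2 : ε * h ≤ η / 400 * h := mul_le_mul_of_nonneg_right hε1 (Nat.cast_nonneg _)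
  linarith

/-- the price of the overhang -/
noncomputable def xoS {η : ℝ} {x : ℕ} {σ : Cst} {ε : ℝ} {ρ : Thr} {g : Gv} {m B h : ℕ} (s : St η x σ ε ρ g m B h) : ℕ → ℝ :=
  xoR (m * Real.log 2) ((σ.θ + σ.δ1 + 4 * ε) * h) (nuE (Real.sqrt σ.θ) h m) s.a s.r s.N

/-- **the price of the overhang** in the frame -/
theorem xo_row : Pre fun _ η x _ _ σ ε ρ => Suf σ ε fun g m B h => ∀ s : St η x σ ε ρ g m B h,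
    0 < nuE (Real.sqrt σ.θ) h m ∧ (∀ j, 0 ≤ xoS s j) ∧ ∑ j ∈ range s.N, xoS s j ≤ η / 200 * h := by
  intro b hb η hη x δh e3 _ _ _
  obtain ⟨θ0, hθ0, H⟩ := core hb (show (0 : ℝ) < η / 200 by positivity)
  refine ⟨θ0, hθ0, fun θ hθ hθ1 => ?_⟩
  obtain ⟨δ0, hδ0, H⟩ := H θ hθ hθ1
  refine ⟨δ0, hδ0, fun δ1 hδ hδ1 σ hσ hσo => ?_⟩
  obtain ⟨ε0, hε0, H⟩ := H δ1 hδ hδ1 σ hσ hσo
  refine ⟨ε0, hε0, fun ε hε hε1 ρ hρ g _ => ?_⟩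
  obtain ⟨m0, H⟩ := H ε hε hε1 ρ hρ
  refine ⟨m0, fun m hm => ?_⟩
  obtain ⟨B0, H⟩ := H m hm
  refine ⟨B0, fun B hB => ?_⟩
  obtain ⟨h0, H⟩ := H B hB
  refine ⟨h0, fun h hh s => ?_⟩
  obtain ⟨e1, e2, e3⟩ := H h hh s.Ω s.Q s.l s.t s.L s.q s.r0 s.Rn s.W s.τ s.υ s.R s.pn s.g' s.gU s.e s.κ₀ s.a1 s.r1 s.run
    s.i0 s.hi0
  have hh0 : (0 : ℝ) ≤ h := Nat.cast_nonneg _
  have hm0 : 0 ≤ (m : ℝ) * Real.log 2 := mul_nonneg (Nat.cast_nonneg _) (Real.log_nonneg (by norm_num))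
  have hL : (σ.θ + σ.δ1 + 4 * ε) * h ≤ 2 * σ.θ * h := mul_le_mul_of_nonneg_right (by linarith) hh0
  have hL0 : 0 ≤ (σ.θ + σ.δ1 + 4 * ε) * h :=
    mul_nonneg (by linarith [hσo.θ0, hσo.δ0]) hh0
  refine ⟨e1, fun j => Top543.xoR_nonneg hm0 hL0 _ _ _ _ _, ?_⟩
  refine le_trans (Finset.sum_le_sum fun j _ => ?_) (e3 _ hL)
  have h1 : 0 ≤ H812.qc0 s.R s.i0 j := H812.qc0_nonneg _ _ _
  have h2 : xoS s j = xoR (m * Real.log 2) ((σ.θ + σ.δ1 + 4 * ε) * h) (nuE (Real.sqrt σ.θ) h m) (az s.R s.i0) (rz s.R s.i0)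
    (nz s.R s.i0) j := rfl
  rw [h2]
  linarith

end Vale.Agent.P106.U.H205.RowQ
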