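import Vale.Agent.P106.U.MIC.Stage
import Vale.Agent.P106.U.H336.SwS
import Vale.Agent.P106.U.H404.RowKd
import Vale.Agent.P106.U.H812.RowT
import Vale.Agent.P106.U.H785.MtrF2

/-!
# P106 / U / H205 : the exceptional levels of the rows [K] and [L] (kinds 1, 2), and the facts outside (helper205)

`s : MIC.St`.

* `cuS s` : the cuts of the runs (field `cut`);  `cu_chain` : one prefix letter and one curvature along levels of `Vs` without cut.
* `xj s` : the excess of the junctions (field `jun`), `xjS s` : levels of the indices with excess `> 1`.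
* **`swK s L c`** := 336's `SwL` with reach `L`, the cuts, the levels `xjS`, the first `c` levels;  **`swK_suf`** :
  `m #swK ≤ κ h`.
* `astep` : the a-step `s.f (s.lm z)` of a level;  `idx1`, `idx2` : the indices of a level of kind `1`, `2` outside `swK`;
  `at1` : the a-step `d ≤ L` levels later is in `At'`;  `jun1` : junction `≤ K' (μ + m) + 1`;  `rk_add` : the diagonal.
-/

set_option autoImplicit false

namespace Vale.Agent.P106.U.H205.SwK

open Finset Vale.Agent.P127 Vale.Agent.P127.Stk Vale.Agent.P127.U Vale.Agent.P106.W Vale.Agent.P106.K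
open Vale.Agent.P106.U.S3 (Run F2b IdK IdP At' At lv mt)
open Vale.Agent.P106.U.S5
open Vale.Agent.P106.U.MIC
open Vale.Agent.P106.U.H833 (aN RN)
open Vale.Agent.P106.U.H336 (SwL KR)
open Vale.Agent.P106.U.H785.Mtr (YI)
open Vale.Agent.P127.U.CellD (q2)

variable {η : ℝ} {x : ℕ} {σ : Cst} {ε : ℝ} {ρ : Thr} {g : Gv} {m B h : ℕ}

/-! ### the cuts -/

/-- the cuts of the runs -/
noncomputable def cuS (s : St η x σ ε ρ g m B h) : Finset ℕ := s.f2.cut.choose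

theorem cu_card (s : St η x σ ε ρ g m B h) : (m : ℝ) * (cuS s).card ≤ (h : ℝ) / B := by
  have h1 : (s.R.m : ℝ) * (cuS s).card ≤ (s.R.h : ℝ) / B := s.f2.cut.choose_spec.1
  rw [s.run.hm, s.run.hh] at h1
  exact h1

theorem cu_fn (s : St η x σ ε ρ g m B h) {i j : ℕ} (hij : i ≤ j) (hj : j ≤ s.R.n + s.pn.J) (h1 : lv s.R i ∈ s.Vs)
    (h2 : lv s.R j ∈ s.Vs) (h3 : lv s.R j ≤ lv s.R i + 1) (h4 : lv s.R i = lv s.R j ∨ lv s.R i ∉ cuS s) :
    Fn s.R.Q (s.F.pf j) (s.F.pf i) ∧ ∀ ω, 0 < s.R.Q.w ω → s.F.Ao (lv s.R j) ω = s.F.Ao (lv s.R i) ω :=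
  s.f2.cut.choose_spec.2 i j hij hj h1 h2 h3 h4

theorem lv_mono (s : St η x σ ε ρ g m B h) {i j : ℕ} (hij : i ≤ j) (hj : j ≤ s.R.n + s.pn.J) : lv s.R i ≤ lv s.R j :=
  H833.aN_mono s.run.ok.pth hij hj

/-- **one variable along the levels without cut** -/
theorem cu_chain (s : St η x σ ε ρ g m B h) {i j : ℕ} (hij : i ≤ j) (hj : j ≤ s.R.n + s.pn.J)
    (hV : ∀ z, lv s.R i ≤ z → z ≤ lv s.R j → z ∈ s.Vs) (hC : ∀ z, lv s.R i ≤ z → z < lv s.R j → z ∉ cuS s) :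
    Fn s.R.Q (s.F.pf j) (s.F.pf i) ∧ ∀ ω, 0 < s.R.Q.w ω → s.F.Ao (lv s.R j) ω = s.F.Ao (lv s.R i) ω := by
  induction j, hij using Nat.le_induction with
  | base => exact ⟨fun ω ω' _ _ e => e, fun ω _ => rfl⟩
  | succ j hij ih =>
    have hP := s.run.ok.pth
    have m1 := lv_mono s (i := i) (j := j) hij (by omega)
    have m2 := lv_mono s (i := j) (j := j + 1) (Nat.le_succ j) hj
    have m3 : lv s.R (j + 1) ≤ lv s.R j + 1 := H833.aN_step hP (i := j) (by omega)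
    obtain ⟨f1, f2⟩ := ih (by omega) (fun z h1 h2 => hV z h1 (by omega)) (fun z h1 h2 => hC z h1 (by omega))
    obtain ⟨g1, g2⟩ := cu_fn s (i := j) (j := j + 1) (Nat.le_succ j) hj (hV _ m1 (by omega)) (hV _ (by omega) le_rfl) m3
      (by
        rcases Nat.eq_or_lt_of_le m2 with h | h
        · exact Or.inl h
        · exact Or.inr (hC _ m1 h))
    refine ⟨fun ω ω' w1 w2 e => g1 ω ω' w1 w2 (f1 ω ω' w1 w2 e), fun ω w1 => ?_⟩
    rw [g2 ω w1, f2 ω w1]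

/-! ### the junctions -/

/-- the excess of the junctions -/
noncomputable def xj (s : St η x σ ε ρ g m B h) : ℕ → ℝ := s.f2o.jun.choose

theorem xj_nonneg (s : St η x σ ε ρ g m B h) (k : ℕ) : 0 ≤ xj s k := s.f2o.jun.choose_spec.1 k

theorem xj_sum (s : St η x σ ε ρ g m B h) : ∑ k ∈ range (s.R.n + 1), xj s k ≤ F2b s.R s.pn B (μS x m) (KS ρ) 0 :=
  s.f2o.jun.choose_spec.2.2

theorem xj_jun (s : St η x σ ε ρ g m B h) {k : ℕ} (h1 : 1 ≤ k) (h2 : k ≤ s.R.n) (hV : lv s.R k ∈ s.Vs) (hX : lv s.R k ∉ s.Xs)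
    (hA : s.R.IsA k) : hc s.R.Q (s.R.C.T k) ((mt s.R s.F (μS x m) s.o s.o').lt k) ≤
      KS ρ * ((μS x m : ℝ) + s.R.m) + xj s k :=
  s.f2o.jun.choose_spec.2.1 k (mem_Icc.2 ⟨h1, h2⟩) hV hX hA

open Classical in
/-- levels with a large excess -/
noncomputable def xjS (s : St η x σ ε ρ g m B h) : Finset ℕ :=
  ((range (s.R.n + 1)).filter fun k => 1 < xj s k).image (lv s.R)

theorem xjS_card (s : St η x σ ε ρ g m B h) : ((xjS s).card : ℝ) ≤ F2b s.R s.pn B (μS x m) (KS ρ) 0 := by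
  classical
  refine le_trans ?_ (xj_sum s)
  have h1 : (xjS s).card ≤ ((range (s.R.n + 1)).filter fun k => 1 < xj s k).card := by
    unfold xjS
    exact card_image_le
  have h2 : (((range (s.R.n + 1)).filter fun k => 1 < xj s k).card : ℝ) ≤
      ∑ k ∈ (range (s.R.n + 1)).filter (fun k => 1 < xj s k), xj s k := by
    rw [card_eq_sum_ones]
    push_cast
    exact sum_le_sum fun k hk => (mem_filter.1 hk).2.le
  have h3 : ∑ k ∈ (range (s.R.n + 1)).filter (fun k => 1 < xj s k), xj s k ≤ ∑ k ∈ range (s.R.n + 1), xj s k :=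
    sum_le_sum_of_subset_of_nonneg (filter_subset _ _) fun k _ _ => xj_nonneg s k
  have h4 : ((xjS s).card : ℝ) ≤ (((range (s.R.n + 1)).filter fun k => 1 < xj s k).card : ℝ) := by exact_mod_cast h1
  linarith

/-- outside the levels `xjS` the excess is at most `1` -/
theorem xj_le (s : St η x σ ε ρ g m B h) {k : ℕ} (hk : k ≤ s.R.n) (h : lv s.R k ∉ xjS s) : xj s k ≤ 1 := by
  classical
  by_contra hcon
  push Not at hcon
  exact h (mem_image.2 ⟨k, mem_filter.2 ⟨mem_range.2 (by omega), hcon⟩, rfl⟩)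

/-! ### the exceptional levels -/

/-- **the exceptional levels** : reach `L`, first `c` levels -/
noncomputable def swK (s : St η x σ ε ρ g m B h) (L c : ℕ) : Finset ℕ :=
  SwL s.R B s.Vs s.Xs L ∪ (cuS s ∪ (xjS s ∪ range c))

theorem not_swK (s : St η x σ ε ρ g m B h) {L c z : ℕ} (hz : z ∉ swK s L c) :
    z ∉ SwL s.R B s.Vs s.Xs L ∧ z ∉ cuS s ∧ z ∉ xjS s ∧ c ≤ z := by
  unfold swK at hz
  rw [mem_union, mem_union, mem_union, mem_range] at hz
  push Not at hz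
  exact hz

theorem mu8 (x m : ℕ) : μS x m / 8 = 1000 * cN * xS x * m := by
  have : μS x m = 8 * (1000 * cN * xS x * m) := by
    show 8000 * cN * xS x * m = _
    ring
  rw [this]
  exact Nat.mul_div_cancel_left _ (by norm_num)

theorem cN_pos : 1 ≤ cN := by
  have : 800 ≤ cN := le_max_left _ _
  omega

theorem bpos (x : ℕ) : 0 < 1000 * cN * xS x := by
  have h1 := cN_pos
  have h2 : 1 ≤ xS x := by unfold xS; omega
  positivity

/-- numbers -/
theorem ev_mu (x : ℕ) (C : ℝ) {κ : ℝ} (hκ : 0 < κ) :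
    ∀ᶠ m : ℕ in Filter.atTop, C * ((m : ℝ) + μS x m + 1) * q2 (μS x m / 8) ≤ κ := by
  have h1 := H652.ev_q2 (|C| * (2 + (cμ * xS x : ℕ))) 1 0 (1000 * cN * xS x) (bpos x) hκ
  filter_upwards [h1, H652.ev_nat 1] with m h2 h3
  rw [mu8]
  have e1 : (m : ℝ) + μS x m + 1 ≤ (2 + (cμ * xS x : ℕ)) * m := by
    have h4 : (1 : ℝ) ≤ m := by exact_mod_cast h3
    have h5 : ((μS x m : ℕ) : ℝ) = (cμ * xS x : ℕ) * m := by
      unfold μS
      push_cast
      ring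
    rw [h5]
    linarith
  have e2 : (0 : ℝ) < q2 (1000 * cN * xS x * m) := CellD.q2_pos _
  have e3 : 0 ≤ (m : ℝ) + μS x m + 1 := by positivity
  have e4 : C * ((m : ℝ) + μS x m + 1) ≤ |C| * ((2 + (cμ * xS x : ℕ)) * m) :=
    mul_le_mul (le_abs_self C) e1 e3 (abs_nonneg C)
  have e5 := mul_le_mul_of_nonneg_right e4 e2.le
  refine e5.trans ((le_of_eq ?_).trans h2)
  rw [Nat.zero_mul, pow_zero, pow_one]
  ring

/-- `m F2b` is small -/
theorem ev_F2b (x : ℕ) (J : ℕ) (K' K1 : ℝ) (hK1 : 0 ≤ K1) {κ : ℝ} (hκ : 0 < κ) :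
    H652.Ev3 fun m B h => ∀ n : ℕ, (m : ℝ) * n ≤ (2 * K1 + 3) * h →
      (m : ℝ) * ((h : ℝ) / B + K' * (((0 : ℕ) : ℝ) + 1) ^ 2 * ((m : ℝ) + μS x m + 1) * q2 (μS x m / 8) * ((n : ℝ) + J + 1)) ≤
        κ * h := by
  have h1 : H652.Ev3 fun m B _ => (m : ℝ) / B ≤ κ / 2 := H652.Ev3.of_B' fun m => H652.ev_div m (half_pos hκ)
  have h2 : H652.Ev3 fun m _ _ => |K'| * ((m : ℝ) + μS x m + 1) * q2 (μS x m / 8) ≤ κ / 2 / (2 * K1 + 4) :=
    H652.Ev3.of_m (ev_mu x _ (by positivity))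
  have h3 : H652.Ev3 fun m _ h => (m : ℝ) * (J + 1) ≤ 1 * h := H652.Ev3.of_h fun m _ => H652.ev_con _ one_pos
  refine (h1.and (h2.and h3)).mono fun m B h H n hn => ?_
  obtain ⟨a1, a2, a3⟩ := H
  have hh : (0 : ℝ) ≤ h := Nat.cast_nonneg _
  have b1 := mul_le_mul_of_nonneg_right a1 hh
  have q0 : (0 : ℝ) < q2 (μS x m / 8) := CellD.q2_pos _
  have b2 : (m : ℝ) * ((n : ℝ) + J + 1) ≤ (2 * K1 + 4) * h := by linarith
  have b0 : 0 ≤ (m : ℝ) * ((n : ℝ) + J + 1) := by positivity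
  have b3 : K' * (((m : ℝ) + μS x m + 1) * q2 (μS x m / 8)) ≤ |K'| * ((m : ℝ) + μS x m + 1) * q2 (μS x m / 8) := by
    rw [mul_assoc |K'|]
    exact mul_le_mul_of_nonneg_right (le_abs_self K') (by positivity)
  have b4 := mul_le_mul_of_nonneg_right (b3.trans a2) b0
  have b5 : κ / 2 / (2 * K1 + 4) * ((m : ℝ) * ((n : ℝ) + J + 1)) ≤ κ / 2 / (2 * K1 + 4) * ((2 * K1 + 4) * h) :=
    mul_le_mul_of_nonneg_left b2 (by positivity)
  have b6 : κ / 2 / (2 * K1 + 4) * ((2 * K1 + 4) * h) = κ / 2 * h := by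
    have : 2 * K1 + 4 ≠ 0 := by positivity
    field_simp
  have e1 : (m : ℝ) * ((h : ℝ) / B + K' * (((0 : ℕ) : ℝ) + 1) ^ 2 * ((m : ℝ) + μS x m + 1) * q2 (μS x m / 8) *
      ((n : ℝ) + J + 1)) = (m : ℝ) / B * h + K' * (((m : ℝ) + μS x m + 1) * q2 (μS x m / 8)) *
        ((m : ℝ) * ((n : ℝ) + J + 1)) := by
    push_cast
    ring
  rw [e1]
  linarith

/-- **few exceptional levels** -/
theorem swK_suf (η : ℝ) (x : ℕ) (σ : Cst) (ε : ℝ) (ρ : Thr) (hK1 : 0 ≤ σ.K1) {κ : ℝ} (hκ : 0 < κ) (L c : ℕ) :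
    Suf σ ε fun g m B h => 1 ≤ B ∧ ∀ s : St η x σ ε ρ g m B h, (m : ℝ) * (swK s L c).card ≤ κ * h := by
  have k4 : 0 < κ / 4 := by positivity
  have h1 := H336.sw_suf' η x σ ε ρ k4 L c
  have h2 : H652.Ev3 fun _ B _ => (1 : ℝ) / B ≤ κ / 4 := H652.Ev3.of_B' fun _ => H652.ev_div 1 k4
  have h3 := ev_F2b x ρ.J (KS ρ) σ.K1 hK1 k4
  have h4 : Suf σ ε fun _ m B h => (1 : ℝ) / B ≤ κ / 4 ∧ ∀ n : ℕ, (m : ℝ) * n ≤ (2 * σ.K1 + 3) * h →
      (m : ℝ) * ((h : ℝ) / B + KS ρ * (((0 : ℕ) : ℝ) + 1) ^ 2 * ((m : ℝ) + μS x m + 1) * q2 (μS x m / 8) *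
        ((n : ℝ) + ρ.J + 1)) ≤ κ / 4 * h := Suf.of_ev3 fun g _ => (h2.and h3).out
  refine (h1.and h4).mono fun g m B h _ H => ⟨H.1.1, fun s => ?_⟩
  obtain ⟨⟨_, a1⟩, a2, a3⟩ := H
  have hP := s.run.ok.pth
  have hq : (s.R.q : ℝ) ≤ s.R.r0 + (σ.K1 + 1) * s.R.h := by
    rw [s.run.hq, s.run.hr0, s.run.hh]
    exact s.run.qr
  have hn := H336.mn_le hP hq
  rw [s.run.hm, s.run.hh] at hn
  have hm : (0 : ℝ) ≤ m := Nat.cast_nonneg _
  have b1 := a1 s (range c) (by rw [card_range])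
  have b2 := cu_card s
  have b3 : (h : ℝ) / B ≤ κ / 4 * h := by
    have : (h : ℝ) / B = 1 / B * h := by ring
    rw [this]
    exact mul_le_mul_of_nonneg_right a2 (Nat.cast_nonneg _)
  have b4 := mul_le_mul_of_nonneg_left (xjS_card s) hm
  have b5 : (m : ℝ) * F2b s.R s.pn B (μS x m) (KS ρ) 0 ≤ κ / 4 * h := by
    unfold S3.F2b
    rw [s.run.hm, s.run.hh, s.run.hJ]
    exact a3 s.R.n hn
  have b6 : ((swK s L c).card : ℝ) ≤ (SwL s.R B s.Vs s.Xs L ∪ range c).card + (cuS s).card + (xjS s).card := by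
    have e : swK s L c = (SwL s.R B s.Vs s.Xs L ∪ range c) ∪ (cuS s ∪ xjS s) := by
      unfold swK
      ext z
      simp only [mem_union]
      tauto
    rw [e]
    have c1 := card_union_le (SwL s.R B s.Vs s.Xs L ∪ range c) (cuS s ∪ xjS s)
    have c2 := card_union_le (cuS s) (xjS s)
    have c3 : ((SwL s.R B s.Vs s.Xs L ∪ range c) ∪ (cuS s ∪ xjS s)).card ≤
        (SwL s.R B s.Vs s.Xs L ∪ range c).card + (cuS s).card + (xjS s).card := by omega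
    exact_mod_cast c3
  have b7 := mul_le_mul_of_nonneg_left b6 hm
  have hh : (0 : ℝ) ≤ κ * h := by positivity
  have e2 : (m : ℝ) * ((SwL s.R B s.Vs s.Xs L ∪ range c).card + (cuS s).card + (xjS s).card) =
      m * (SwL s.R B s.Vs s.Xs L ∪ range c).card + m * (cuS s).card + m * (xjS s).card := by ring
  rw [e2] at b7
  linarith

/-! ### the a-steps -/

theorem f_le (s : St η x σ ε ρ g m B h) (j : ℕ) : s.f j ≤ s.R.n := H812.ix_le_n s.R s.i0 j

theorem a_top (s : St η x σ ε ρ g m B h) : s.a s.N = lv s.R s.R.n := H404.az_top s.hi0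

/-- the a-step of a level -/
theorem astep (s : St η x σ ε ρ g m B h) {z : ℕ} (h0 : s.a 0 ≤ z) (h1 : z < s.a s.N) :
    s.lm z < s.N ∧ s.a (s.lm z) = z ∧ s.a (s.lm z + 1) = z + 1 ∧ lv s.R (s.f (s.lm z)) = z ∧ s.R.IsA (s.f (s.lm z)) ∧
      s.f (s.lm z) < s.R.n := by
  have hP := s.run.ok.pth
  have D := H812.st_sdat s
  have hl := H812.lvl D
  have e1 : s.lm z < s.N := hl.lt z h0 h1
  have e2 : s.a (s.lm z) = z := hl.eq z h0 h1
  have e3 : s.a (s.lm z + 1) = z + 1 := hl.st z h0 h1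
  have e4 : s.R.IsA (s.f (s.lm z)) := H812.ix_isA hP e1 (by
    show s.a (s.lm z + 1) = s.a (s.lm z) + 1
    rw [e2, e3])
  have e5 : s.f (s.lm z) < s.f (s.lm z + 1) := H812.ix_strict hP _ _ (Nat.lt_succ_self _) e1
  exact ⟨e1, e2, e3, e2, e4, e5.trans_le (f_le s _)⟩

/-- a kind-`1` or kind-`2` level is young -/
theorem kd_vs (s : St η x σ ε ρ g m B h) {z : ℕ} (h : s.kd z = 1 ∨ s.kd z = 2) : z ∈ s.Vs := by
  classical
  by_contra hcon
  have e : s.kd z = 0 := by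
    unfold St.kd
    rw [if_neg hcon]
  rw [e] at h
  rcases h with h | h <;> exact absurd h (by decide)

/-- **the indices of a level of kind 1** outside the exceptional levels -/
theorem idx1 (s : St η x σ ε ρ g m B h) (hB : 1 ≤ B) {L c z : ℕ} (hS : z ∉ swK s L c) (hk : s.kd z = 1) {k : ℕ}
    (kn : k ≤ s.R.n) (e : lv s.R k = z) : 1 ≤ k ∧ k ∈ IdK s.R s.Vs s.Xs ∧ s.R.m * s.R.b1 + s.R.C.rk k < s.R.C.rf k ∧
      s.bV + s.R.C.rk k ≤ s.R.C.rf k ∧ k ∈ YI s.R s.pn s.Vs ∧ lv s.R k ∈ s.Vs ∧ lv s.R k ∉ s.Xs := by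
  have hP := s.run.ok.pth
  have hz : z ≤ aN s.R s.R.n := by
    rw [← e]
    exact H833.aN_mono hP kn (by omega)
  have h0 := (not_swK s hS).1
  have h1 : H404.kd3 s.R s.Vs s.Xs z = 1 := (H404.kd3_kd hz h0).1.2 ((H404.kd_cases s z).1.1 hk)
  have h2 : H404.kd3 s.R s.Vs s.Xs (aN s.R k) = 1 := by
    have : aN s.R k = z := e
    rw [this, h1]
  obtain ⟨k1, k2, k3, k4⟩ := H336.idK s.f2 hP hB kn h2
  have hV : lv s.R k ∈ s.Vs := by
    rw [e]
    exact kd_vs s (Or.inl hk)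
  refine ⟨k1, k2, k3, k4, ⟨by omega, hV⟩, hV, ?_⟩
  rw [e]
  exact (H336.not_swl hz h0).2.1

/-- **the indices of a level of kind 2** outside the exceptional levels -/
theorem idx2 (s : St η x σ ε ρ g m B h) (hB : 1 ≤ B) {L c z : ℕ} (hS : z ∉ swK s L c) (hk : s.kd z = 2) {k : ℕ}
    (kn : k ≤ s.R.n) (e : lv s.R k = z) : 1 ≤ k ∧ k ∈ IdP s.R s.F B s.Vs s.Xs ∧
      ¬ s.R.m * s.R.b1 + s.R.C.rk k < s.R.C.rf k ∧
      s.R.C.rf k + 2 * (s.R.m * B) ≤ s.R.m * s.R.b1 + s.F.rk0 k ∧ k ∈ YI s.R s.pn s.Vs ∧ lv s.R k ∈ s.Vs ∧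
      lv s.R k ∉ s.Xs := by
  have hP := s.run.ok.pth
  have hz : z ≤ aN s.R s.R.n := by
    rw [← e]
    exact H833.aN_mono hP kn (by omega)
  have h0 := (not_swK s hS).1
  have h1 : H404.kd3 s.R s.Vs s.Xs z = 2 := (H404.kd3_kd hz h0).2.1.2 ((H404.kd_cases s z).2.1.1 hk)
  have h2 : H404.kd3 s.R s.Vs s.Xs (aN s.R k) = 2 := by
    have : aN s.R k = z := e
    rw [this, h1]
  obtain ⟨k1, k2, k3, k4⟩ := H336.idP s.f2 hP hB kn h2
  have hV : lv s.R k ∈ s.Vs := by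
    rw [e]
    exact kd_vs s (Or.inr hk)
  refine ⟨k1, k2, k3, k4, ⟨by omega, hV⟩, hV, ?_⟩
  rw [e]
  exact (H336.not_swl hz h0).2.1

/-- **the a-step `d` levels later** : `k` any index of the level `z`, or its a-step -/
theorem at1 (s : St η x σ ε ρ g m B h) {L c z d k : ℕ} (h0 : s.a 0 ≤ z) (hS : z ∉ swK s L c) (e : lv s.R k = z)
    (kn : k ≤ s.R.n) (d1 : 1 ≤ d) (hd : d ≤ L) (hz : z + d < s.a s.N) :
    k < s.f (s.lm (z + d)) ∧ s.f (s.lm (z + d)) ∈ At' s.R s.pn B d k := by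
  have hP := s.run.ok.pth
  obtain ⟨_, _, _, e1, e2, e3⟩ := astep s (z := z + d) (by omega) hz
  have hki : k < s.f (s.lm (z + d)) := by
    by_contra hcon
    have h1 : lv s.R (s.f (s.lm (z + d))) ≤ lv s.R k := lv_mono s (by omega) (by omega)
    omega
  have hk : aN s.R k = z := e
  refine ⟨hki, (H336.at_of (L := L) hP (by rw [hk]; exact (not_swK s hS).1) hki e3.le e2 (d := d) (by rw [hk]; exact e1)
    hd).2⟩

/-- the a-steps are increasing -/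
theorem lm_lt (s : St η x σ ε ρ g m B h) {z d : ℕ} (h0 : s.a 0 ≤ z) (d1 : 1 ≤ d) (hz : z + d < s.a s.N) :
    s.lm z < s.lm (z + d) ∧ s.f (s.lm z) < s.f (s.lm (z + d)) := by
  have hP := s.run.ok.pth
  obtain ⟨a1, a2, _, _, _, _⟩ := astep s (z := z) h0 (by omega)
  obtain ⟨b1, b2, _, _, _, _⟩ := astep s (z := z + d) (by omega) hz
  have h1 : s.lm z < s.lm (z + d) := by
    by_contra hcon
    have h2 := (H812.st_sdat s).am (i := s.lm (z + d)) (j := s.lm z) (by omega) a1.le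
    omega
  exact ⟨h1, H812.ix_strict hP _ _ h1 b1.le⟩

/-- **the junction** at the a-step of a level of kind `1` or `2` -/
theorem jun1 (s : St η x σ ε ρ g m B h) {L c z : ℕ} (h0 : s.a 0 ≤ z) (hz : z < s.a s.N) (hS : z ∉ swK s L c)
    (hk : s.kd z = 1 ∨ s.kd z = 2) :
    hc s.R.Q (s.R.C.T (s.f (s.lm z))) ((mt s.R s.F (μS x m) s.o s.o').lt (s.f (s.lm z))) ≤
      KS ρ * ((μS x m : ℝ) + m) + 1 := by
  have hP := s.run.ok.pth
  obtain ⟨_, _, _, e1, e2, e3⟩ := astep s h0 hz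
  have hz' : z ≤ aN s.R s.R.n := by
    have := a_top s
    show z ≤ lv s.R s.R.n
    omega
  obtain ⟨g0, g1, _⟩ := H336.not_swl hz' (not_swK s hS).1
  have k1 : 1 ≤ s.f (s.lm z) := H336.ge_one hP (by
    have : aN s.R (s.f (s.lm z)) = z := e1
    rw [this]
    exact g0)
  have h1 := xj_jun s k1 e3.le (by rw [e1]; exact kd_vs s hk) (by rw [e1]; exact g1) e2
  have h2 := xj_le s e3.le (by rw [e1]; exact (not_swK s hS).2.2.1)
  rw [s.run.hm] at h1
  linarith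

/-- the digits of a level -/
theorem C_a (s : St η x σ ε ρ g m B h) {z : ℕ} (h0 : s.a 0 ≤ z) (hz : z < s.a s.N) :
    s.R.C.a (s.f (s.lm z)) = s.R.m * z := by
  obtain ⟨_, _, _, e1, _, e3⟩ := astep s h0 hz
  have h1 := H833.lev_a s.run.ok.pth (i := s.f (s.lm z)) (by omega)
  have h2 : aN s.R (s.f (s.lm z)) = z := e1
  rw [h1, h2]

/-- **the diagonal** -/
theorem rk_succ (s : St η x σ ε ρ g m B h) {z : ℕ} (h0 : s.a 0 ≤ z) (hz : z + 1 < s.a s.N)
    (hV : z ∈ s.Vs ∨ z + 1 ∈ s.Vs) : s.R.C.rk (s.f (s.lm (z + 1))) = s.R.C.rk (s.f (s.lm z)) + s.R.m := by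
  obtain ⟨_, _, _, a1, a2, a3⟩ := astep s (z := z) h0 (by omega)
  obtain ⟨_, _, _, b1, b2, b3⟩ := astep s (z := z + 1) (by omega) hz
  refine s.f2.diag _ _ (by omega) a2 b2 ?_ (by rw [a1, b1]; exact hV)
  rw [C_a s (by omega) hz, C_a s h0 (by omega)]
  ring

theorem rk_add (s : St η x σ ε ρ g m B h) {z : ℕ} (h0 : s.a 0 ≤ z) (d : ℕ) (hz : z + d < s.a s.N)
    (hV : ∀ w, z ≤ w → w < z + d → w ∈ s.Vs) :
    s.R.C.rk (s.f (s.lm (z + d))) = s.R.C.rk (s.f (s.lm z)) + d * s.R.m := by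
  induction d with
  | zero => simp
  | succ d ih =>
    have h1 := ih (by omega) fun w h1 h2 => hV w h1 (by omega)
    have h2 := rk_succ s (z := z + d) (by omega) (by omega) (Or.inl (hV (z + d) (by omega) (by omega)))
    rw [← Nat.add_assoc, h2, h1]
    ring

end Vale.Agent.P106.U.H205.SwK
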