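import Vale.Agent.P106.U.H205.SwK
import Vale.Agent.P106.U.H495.RK1

/-!
# P106 / U / H205 : the input [SW] of row [K] (helper205)

* **`swP : H495.RK.SwP`** : exceptional levels `swK` (reach `L`, first `2 cμ (x + 12)` levels) and the levels of helper624's
  junctions.
-/

set_option autoImplicit false

namespace Vale.Agent.P106.U.H205.SwP

open Finset Vale.Agent.P127 Vale.Agent.P127.Stk Vale.Agent.P127.U Vale.Agent.P106.W Vale.Agent.P106.K
open Vale.Agent.P106.U.S3 (Run IdK lv mt)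
open Vale.Agent.P106.U.S5 hiding Cst
open Vale.Agent.P106.U.MIC
open Vale.Agent.P106.U.H205.SwK
open Vale.Agent.P106.U.H495.RK (ui PuK LvF PF)
open Vale.Agent.P106.U.H624 (JSt jS JN ev_JN jun_st)

section

variable {η : ℝ} {x : ℕ} {σ : S5.Cst} {ε : ℝ} {ρ : Thr} {g : Gv} {m B h : ℕ}

/-- number of the first levels -/
noncomputable def cK (x : ℕ) : ℕ := 2 * (cμ * xS x)

/-- **the facts of a pure level** -/
theorem lvF (s : St η x σ ε ρ g m B h) (hB : 1 ≤ B) {L z : ℕ} {S2 : Finset ℕ}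
    (hJ : ∀ i ≤ s.R.n, lv s.R i ∈ s.Vs → lv s.R i ∉ S2 → JSt s (jS ρ x m) i) (h0 : s.a 0 ≤ z) (hz : z < s.a s.N)
    (hp : PuK s (swK s L (cK x) ∪ S2) z) : LvF s z := by
  obtain ⟨hS, hk⟩ := hp
  rw [mem_union] at hS
  push Not at hS
  obtain ⟨hS1, hS2⟩ := hS
  obtain ⟨_, _, _, e1, e2, e3⟩ := astep s h0 hz
  obtain ⟨i1, i2, i3, i4, i5, i6, i7⟩ := idx1 s hB hS1 hk (k := s.f (s.lm z)) e3.le e1
  have ha : s.R.C.a (ui s z) = z * s.R.m := by
    have := C_a s h0 hz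
    show s.R.C.a (s.f (s.lm z)) = _
    rw [this, Nat.mul_comm]
  refine ⟨e2, i1, e3, ha, e1, ?_, ?_, i2, i4, ?_, ?_⟩
  · rw [← e1]
    exact i6
  · rw [← e1]
    exact i7
  · rw [ha, s.run.hm]
    have h1 := (not_swK s hS1).2.2.2
    have h2 : 2 * μS x m = cK x * m := by
      unfold μS cK
      ring
    rw [h2]
    exact Nat.mul_le_mul_right _ h1
  · exact hJ _ e3.le i6 (by
      show lv s.R (s.f (s.lm z)) ∉ S2
      rw [e1]
      exact hS2)

/-- **the facts of an interval of pure levels** -/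
theorem pf (s : St η x σ ε ρ g m B h) (hB : 1 ≤ B) {L : ℕ} {S2 : Finset ℕ}
    (hJ : ∀ i ≤ s.R.n, lv s.R i ∈ s.Vs → lv s.R i ∉ S2 → JSt s (jS ρ x m) i) {w y : ℕ} (h0 : s.a 0 ≤ w) (hwy : w ≤ y)
    (hL : y ≤ w + L) (hy : y < s.a s.N) (hp : ∀ z, w ≤ z → z ≤ y → PuK s (swK s L (cK x) ∪ S2) z) : PF s w y := by
  have hV : ∀ z, w ≤ z → z ≤ y → z ∈ s.Vs := fun z h1 h2 => kd_vs s (Or.inl (hp z h1 h2).2)
  have hS1 : ∀ z, w ≤ z → z ≤ y → z ∉ swK s L (cK x) := fun z h1 h2 => by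
    have := (hp z h1 h2).1
    rw [mem_union] at this
    push Not at this
    exact this.1
  have hA : ∀ z, w ≤ z → z ≤ y → lv s.R (ui s z) = z ∧ ui s z < s.R.n := fun z h1 h2 => by
    obtain ⟨_, _, _, e1, _, e3⟩ := astep s (z := z) (by omega) (by omega)
    exact ⟨e1, e3⟩
  have hup : ∀ z z', w ≤ z → z < z' → z' ≤ y → ui s z < ui s z' := fun z z' h1 h2 h3 => by
    obtain ⟨d, rfl⟩ : ∃ d, z' = z + d := ⟨z' - z, by omega⟩
    exact (lm_lt s (z := z) (d := d) (by omega) (by omega) (by omega)).2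
  refine ⟨hwy, fun z h1 h2 => lvF s hB hJ (by omega) (by omega) (hp z h1 h2), hup, ?_, ?_, ?_⟩
  · intro z z' h1 h2 h3
    obtain ⟨d, rfl⟩ : ∃ d, z' = z + d := ⟨z' - z, by omega⟩
    have := rk_add s (z := z) (by omega) d (by omega) fun v v1 v2 => hV v (by omega) (by omega)
    rw [Nat.add_sub_cancel_left]
    exact this
  · intro z z' h1 h2 h3 ω hω
    have a1 := hA z h1 (by omega)
    have a2 := hA z' (by omega) h3
    have hle : ui s z ≤ ui s z' := by
      rcases Nat.eq_or_lt_of_le h2 with e | e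
      · rw [e]
      · exact (hup z z' h1 e h3).le
    have := (cu_chain s hle (by omega) (fun v v1 v2 => hV v (by omega) (by omega))
      (fun v v1 v2 => (not_swK s (hS1 v (by omega) (by omega))).2.1)).2 ω hω
    rw [a1.1, a2.1] at this
    exact this
  · rcases Nat.eq_or_lt_of_le hwy with e | e
    · rw [← e]
      omega
    · obtain ⟨d, rfl⟩ : ∃ d, y = w + d := ⟨y - w, by omega⟩
      have a1 := hA w le_rfl (by omega)
      have := (at1 s (L := L) (c := cK x) (z := w) (d := d) (k := ui s w) h0 (hS1 w le_rfl (by omega)) a1.1 a1.2.le (by omega)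
        (by omega) hy).2
      simp only [S3.At', mem_filter] at this
      exact this.2.2.1

end

/-- **[SW]** with the cuts and helper336's levels inside the exceptional set -/
theorem swP' : Pre fun _ η x _ _ σ ε ρ => ∀ (L : ℕ) (κ : ℝ), 0 < κ → Suf σ ε fun g m B h => ∀ s : St η x σ ε ρ g m B h,
    ∃ Sw : Finset ℕ, H336.SwL s.R B s.Vs s.Xs L ⊆ Sw ∧ cuS s ⊆ Sw ∧ swK s L (cK x) ⊆ Sw ∧ (m : ℝ) * Sw.card ≤ κ * h ∧
      ∀ w y, s.a 0 ≤ w → w ≤ y → y ≤ w + L → y < s.a s.N → (∀ z, w ≤ z → z ≤ y → PuK s Sw z) → PF s w y := by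
  classical
  intro b hb η hη x δh e3 _ _ _
  refine ⟨1, one_pos, fun θ _ _ => ⟨1, one_pos, fun δ1 _ _ σ _ hσ => ⟨1, one_pos, fun ε _ _ ρ hρ => ?_⟩⟩⟩
  intro L κ hκ
  have k2 : 0 < κ / 2 := by positivity
  have h1 := swK_suf η x σ ε ρ hσ.bs.K10.le k2 L (cK x)
  have h2 : Suf σ ε fun _ m B h => JN σ ρ x (κ / 2) m B h := Suf.of_ev3 fun g _ => (ev_JN σ ρ x k2).out
  refine (h1.and h2).mono fun g m B h _ H s => ?_
  obtain ⟨⟨hB, H1⟩, H2⟩ := H
  obtain ⟨S2, c1, _, _, _, hJ⟩ := jun_st hρ H2 s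
  refine ⟨swK s L (cK x) ∪ S2, ?_, ?_, subset_union_left, ?_, ?_⟩
  · refine fun z hz => mem_union_left _ ?_
    unfold swK
    exact mem_union_left _ hz
  · refine fun z hz => mem_union_left _ ?_
    unfold swK
    exact mem_union_right _ (mem_union_left _ hz)
  · have a1 := H1 s
    have a2 : (((swK s L (cK x) ∪ S2).card : ℕ) : ℝ) ≤ (swK s L (cK x)).card + S2.card := by
      exact_mod_cast card_union_le (swK s L (cK x)) S2
    have a3 := mul_le_mul_of_nonneg_left a2 (Nat.cast_nonneg m : (0 : ℝ) ≤ m)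
    rw [mul_add] at a3
    linarith
  · intro w y h0 hwy hL hy hp
    exact pf s hB hJ h0 hwy hL hy hp

/-- **[SW]** -/
theorem swP : H495.RK.SwP := by
  refine Pre.mono swP' fun _ η x δh e3 σ ε ρ _ _ _ _ _ _ _ _ _ H L κ hκ => ?_
  refine (H L κ hκ).mono fun g m B h _ H s => ?_
  obtain ⟨Sw, h1, _, _, h4, h5⟩ := H s
  exact ⟨Sw, h1, h4, h5⟩

end Vale.Agent.P106.U.H205.SwP
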