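import Vale.Agent.P106.U.MIC.Stage
import Vale.Agent.P106.U.H495.RowV
import Vale.Agent.P106.U.H812.RowT

/-!
# P106 / U / H205 : row [K] over the situation, static part (helper205)

* `winK_of` : helper495's `rowK` over `St`: all static hypotheses discharged (twin of helper425's `win_of`).
-/

set_option autoImplicit false

namespace Vale.Agent.P106.U.H205.WinKo

open Finset Vale.Agent.P127 Vale.Agent.P127.Stk Vale.Agent.P127.U Vale.Agent.P106.W Vale.Agent.P106.K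
open Vale.Agent.P106.U.S3 (Run)
open Vale.Agent.P106.U.S5
open Vale.Agent.P106.U.MIC
open Vale.Agent.P106.U.H833 (aN RN tdg cNst lx errO)
open Vale.Agent.P106.U.H101 (lc low)
open Vale.Agent.P106.U.H118 (Sdat CS full Zw)
open Vale.Agent.P106.U.H495 (KIn WAt)

variable {η : ℝ} {x : ℕ} {σ : Cst} {ε : ℝ} {ρ : Thr} {g : Gv} {m B h : ℕ}

theorem mm_nonneg (s : St η x σ ε ρ g m B h) : 0 ≤ s.mm :=
  mul_nonneg (Nat.cast_nonneg _) (Real.log_nonneg (by norm_num))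

theorem mm_le (s : St η x σ ε ρ g m B h) : s.mm ≤ s.R.m := by
  have h1 : Real.log 2 ≤ 1 := by
    have := Real.log_two_lt_d9
    linarith
  have := mul_le_mul_of_nonneg_left h1 (Nat.cast_nonneg (α := ℝ) s.R.m)
  rw [mul_one] at this
  exact this

/-- **495's `rowK` over the situation** -/
theorem winK_of (s : St η x σ ε ρ g m B h) (hρ : ρ.Ok) (hμ : μS x m ≤ m * B) {κ α θ : Type} (Mt : ℕ → s.Ω → κ)
    {L1 L2 Lk Kr : ℕ} (hKr : 0 < Kr) (hLk : Kr ≤ Lk) {Sw : Finset ℕ}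
    {c0 c2 A0 c1 cj cA cN cJ j1 j2 : ℝ} (hc0 : 0 ≤ c0) (hc2 : 0 ≤ c2) (hA0 : 0 ≤ A0)
    (hcJ : 0 ≤ cJ) (hj1 : 0 ≤ j1) (hj2 : 0 ≤ j2)
    (hc1 : cA + cN ≤ c1) (hcj : cJ + cNst ρ.K + j1 + j2 ≤ cj)
    {coll : ℕ → ℝ} (hco : ∀ j, 0 ≤ coll j) {I1 I2 : ℕ → ℕ → ℝ} {X : Finset ℕ}
    (W : ∀ i k, s.a i < s.a k → WAt s.N s.a (fun z => z ∉ Sw ∧ s.kd z = 1) L1 L2 Lk Kr i k →
      ∃ (A : ℕ → s.Ω → α) (Θ : s.Ω → θ),
        KIn s.Rl s.f (s.R.m * s.R.b1) Mt (fun z => s.lm (s.a i + z)) (s.a k - 1 - s.a i) (s.f (lx s.N s.a Kr k)) A Θ cA cN cJ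
          j1 j2 0 ∧
        ∀ z < s.a k - 1 - s.a i, s.lm (s.a i + z) ∉ X →
          4 * s.mm - (c0 + c2 * s.R.m * coll (s.lm (s.a i + z)) +
              A0 * (Real.sqrt (I1 (s.lm (s.a i + z)) k) + Real.sqrt (I2 (s.lm (s.a i + z)) k))) ≤
            hc s.R.Q (A (z + 1)) (fun ω => (A z ω, (Mt (s.f (s.lm (s.a i + (z + 1)))) ω, Θ ω)))) :
    s.WinK L1 L2 Lk c1 cj (errO c0 c2 s.R.m A0 4 L1 coll I1 I2 X) Sw := by
  have hμ' := H812.st_mu s hμ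
  have hok := H101.low_ok s.o hμ' s.run.ok
  have key := H495.rowK (R := s.Rl) (p := s.pn) hok hρ.K1 (f := s.f) s.hf (N := s.N) (x := s.R.b1)
    (by
      have := H812.ix_le_n s.R s.i0 s.N
      exact this)
    (γ := s.gd) (H812.st_sdat s) (lm := s.lm) (H812.lvl (H812.st_sdat s)) (L1 := L1) (L2 := L2) (Lk := Lk) (Kr := Kr)
    (KK := Lk + 1) hKr (by omega)
    (fun i _ => H812.lev_rec s.run hμ' s.o s.i0 i) Mt (Sw := Sw) (kd := s.kd) (c := 1) (mm := s.mm) (c0 := c0) (c2 := c2)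
    (A0 := A0) (c1 := c1) (cj := cj) (mm_nonneg s) (mm_le s) hc0 hc2 hA0 hcJ hj1 hj2 hc1 hcj (xo := fun _ => 0) (coll := coll)
    (fun _ => le_rfl) hco (I1 := I1) (I2 := I2) (X := X) W
  intro i k i1 h1 h2 h3 h4 h5 h6 h7 h8 h9
  have h10 := key i k i1 h1 h2 h3 h4 h5 h6 h7 h8 h9
  simp only [add_zero] at h10
  exact h10

end Vale.Agent.P106.U.H205.WinKo
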